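import Mathlib

/-!
# P261, shared layer Cs: symmetric cosimplicial modules

`Cos k` is a functor from nonempty finite sets `Fin (n+1)` (ALL maps) to `k`-modules; `X n` is the value on
`n+1` points, that is the cochains of degree `n`. Bi-objects have the DIAGONAL as total complex.
The statements `HTPY`, `SESMID`, ... at the end are proved in the sibling files.
-/

namespace P261.Cs

open scoped TensorProduct

universe u v w

/-- Symmetric cosimplicial `k`-module. -/
structure Cos (k : Type) [CommRing k] where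
  X : ℕ → Type u
  [acg : ∀ n, AddCommGroup (X n)]
  [mod : ∀ n, Module k (X n)]
  map : ∀ {m n : ℕ}, (Fin (m + 1) → Fin (n + 1)) → X m →ₗ[k] X n
  map_id : ∀ (n : ℕ) (x : X n), map (id : Fin (n + 1) → Fin (n + 1)) x = x
  map_comp : ∀ {l m n : ℕ} (f : Fin (l + 1) → Fin (m + 1)) (g : Fin (m + 1) → Fin (n + 1)) (x : X l),
    map (g ∘ f) x = map g (map f x)

attribute [instance] Cos.acg Cos.mod

variable {k : Type} [CommRing k]

/-- The differential. -/
def Cos.d (A : Cos.{u} k) (n : ℕ) : A.X n →ₗ[k] A.X (n + 1) :=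
  ∑ i : Fin (n + 2), ((-1 : k) ^ (i : ℕ)) • A.map (Fin.succAbove i)

/-- Boundaries. -/
def Cos.bd (A : Cos.{u} k) : ∀ n, Submodule k (A.X n)
  | 0 => ⊥
  | n + 1 => LinearMap.range (A.d n)

/-- Natural maps. -/
@[ext] structure Hom (A : Cos.{u} k) (B : Cos.{v} k) where
  app : ∀ n, A.X n →ₗ[k] B.X n
  nat : ∀ {m n : ℕ} (f : Fin (m + 1) → Fin (n + 1)) (x : A.X m), app n (A.map f x) = B.map f (app m x)

section Hom
variable {A : Cos.{u} k} {B : Cos.{v} k} {C : Cos.{w} k}

/-- Identity. -/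
def Hom.id (A : Cos.{u} k) : Hom A A := ⟨fun _ => LinearMap.id, fun _ _ => rfl⟩

/-- Composition. -/
def Hom.comp (g : Hom B C) (f : Hom A B) : Hom A C :=
  ⟨fun n => (g.app n).comp (f.app n), fun h x => by simp [f.nat, g.nat]⟩

instance : Zero (Hom A B) := ⟨⟨fun _ => 0, fun _ _ => by simp⟩⟩
instance : Add (Hom A B) := ⟨fun f g => ⟨fun n => f.app n + g.app n, fun h x => by simp [f.nat, g.nat]⟩⟩
instance : Sub (Hom A B) := ⟨fun f g => ⟨fun n => f.app n - g.app n, fun h x => by simp [f.nat, g.nat]⟩⟩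
instance : SMul k (Hom A B) := ⟨fun t f => ⟨fun n => t • f.app n, fun h x => by simp [f.nat]⟩⟩

@[simp] theorem Hom.id_app (n : ℕ) (x : A.X n) : (Hom.id A).app n x = x := rfl
@[simp] theorem Hom.comp_app (g : Hom B C) (f : Hom A B) (n : ℕ) (x : A.X n) :
    (g.comp f).app n x = g.app n (f.app n x) := rfl
@[simp] theorem Hom.zero_app (n : ℕ) (x : A.X n) : (0 : Hom A B).app n x = 0 := rfl
@[simp] theorem Hom.add_app (f g : Hom A B) (n : ℕ) (x : A.X n) :
    (f + g).app n x = f.app n x + g.app n x := rfl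
@[simp] theorem Hom.sub_app (f g : Hom A B) (n : ℕ) (x : A.X n) :
    (f - g).app n x = f.app n x - g.app n x := rfl
@[simp] theorem Hom.smul_app (t : k) (f : Hom A B) (n : ℕ) (x : A.X n) :
    (t • f).app n x = t • f.app n x := rfl

theorem Hom.map_d (f : Hom A B) (n : ℕ) (x : A.X n) : f.app (n + 1) (A.d n x) = B.d n (f.app n x) := by
  simp [Cos.d, map_sum, f.nat]

theorem Hom.map_bd (f : Hom A B) {n : ℕ} {x : A.X n} (hx : x ∈ A.bd n) : f.app n x ∈ B.bd n := by
  cases n with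
  | zero => simp only [Cos.bd, Submodule.mem_bot] at hx ⊢; simp [hx]
  | succ n => obtain ⟨y, rfl⟩ := hx; exact ⟨f.app n y, (f.map_d n y).symm⟩

theorem Hom.map_cocycle (f : Hom A B) {n : ℕ} {x : A.X n} (hx : A.d n x = 0) : B.d n (f.app n x) = 0 := by
  rw [← f.map_d, hx, map_zero]

/-- `f` is zero on `H^n`. -/
def Null (f : Hom A B) (n : ℕ) : Prop := ∀ x, A.d n x = 0 → f.app n x ∈ B.bd n

/-- `H^n(A) = 0`. -/
def Acyc (A : Cos.{u} k) (n : ℕ) : Prop := ∀ x, A.d n x = 0 → x ∈ A.bd n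

/-- The kernel of `f` on `H^n` is killed by `t`. -/
def Inj (f : Hom A B) (t : k) (n : ℕ) : Prop := ∀ x, A.d n x = 0 → f.app n x ∈ B.bd n → t • x ∈ A.bd n

/-- The cokernel of `f` on `H^n` is killed by `t`. -/
def Surj (f : Hom A B) (t : k) (n : ℕ) : Prop :=
  ∀ y, B.d n y = 0 → ∃ x, A.d n x = 0 ∧ t • y - f.app n x ∈ B.bd n

theorem acyc_iff (A : Cos.{u} k) (n : ℕ) : Acyc A n ↔ Null (Hom.id A) n := Iff.rfl

theorem Null.comp_left {f : Hom A B} {n : ℕ} (h : Null f n) (g : Hom B C) : Null (g.comp f) n :=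
  fun x hx => g.map_bd (h x hx)

theorem Null.comp_right {g : Hom B C} {n : ℕ} (h : Null g n) (f : Hom A B) : Null (g.comp f) n :=
  fun _ hx => h _ (f.map_cocycle hx)

theorem Null.congr {f g : Hom A B} {n : ℕ} (h : Null f n) (e : ∀ x, g.app n x = f.app n x) : Null g n :=
  fun x hx => (e x).symm ▸ h x hx

end Hom

/-- Subobject (for instance one step of a filtration). -/
structure Sub (A : Cos.{u} k) where
  S : ∀ n, Submodule k (A.X n)
  stab : ∀ {m n : ℕ} (f : Fin (m + 1) → Fin (n + 1)) {x : A.X m}, x ∈ S m → A.map f x ∈ S n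

section Sub
variable {A : Cos.{u} k} {B : Cos.{v} k}

/-- A subobject as an object. -/
@[reducible] def Sub.cos (P : Sub A) : Cos.{u} k where
  X n := P.S n
  map f := (A.map f).restrict fun _ hx => P.stab f hx
  map_id n x := Subtype.ext (A.map_id n x)
  map_comp f g x := Subtype.ext (A.map_comp f g x)

/-- Quotient by a subobject. -/
@[reducible] def Sub.quo (P : Sub A) : Cos.{u} k where
  X n := A.X n ⧸ P.S n
  map f := Submodule.mapQ _ _ (A.map f) fun _ hx => P.stab f hx
  map_id n x := by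
    induction x using Submodule.Quotient.induction_on with | H x => simp [A.map_id]
  map_comp f g x := by
    induction x using Submodule.Quotient.induction_on with | H x => simp [A.map_comp]

/-- Inclusion of a subobject. -/
def Sub.incl (P : Sub A) : Hom P.cos A := ⟨fun n => (P.S n).subtype, fun _ _ => rfl⟩

/-- Projection to the quotient. -/
def Sub.mkQ (P : Sub A) : Hom A P.quo := ⟨fun n => (P.S n).mkQ, fun _ _ => rfl⟩

/-- Restriction of a map to subobjects. -/
def Hom.res (f : Hom A B) (P : Sub A) (Q : Sub B) (h : ∀ n, ∀ x ∈ P.S n, f.app n x ∈ Q.S n) :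
    Hom P.cos Q.cos :=
  ⟨fun n => (f.app n).restrict (h n), fun g x => Subtype.ext (f.nat g x.1)⟩

/-- Induced map on quotients. -/
def Hom.quo (f : Hom A B) (P : Sub A) (Q : Sub B) (h : ∀ n, ∀ x ∈ P.S n, f.app n x ∈ Q.S n) :
    Hom P.quo Q.quo :=
  ⟨fun n => Submodule.mapQ _ _ (f.app n) (h n), fun g x => by
    induction x using Submodule.Quotient.induction_on with
    | H x => exact congrArg Submodule.Quotient.mk (f.nat g x)⟩

/-- Kernel. -/
def Hom.ker (f : Hom A B) : Sub A :=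
  ⟨fun n => LinearMap.ker (f.app n), fun g x hx => by
    rw [LinearMap.mem_ker] at hx ⊢; rw [f.nat, hx, map_zero]⟩

/-- Image. -/
def Hom.range (f : Hom A B) : Sub B :=
  ⟨fun n => LinearMap.range (f.app n), fun g _ ⟨x, hx⟩ => ⟨A.map g x, by rw [f.nat, hx]⟩⟩

/-- Intersection. -/
def Sub.inf (P Q : Sub A) : Sub A := ⟨fun n => P.S n ⊓ Q.S n, fun f _ hx => ⟨P.stab f hx.1, Q.stab f hx.2⟩⟩

/-- The whole object. -/
def Sub.top (A : Cos.{u} k) : Sub A := ⟨fun _ => ⊤, fun _ _ _ => trivial⟩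

/-- Boundaries of elements of a subobject. -/
def Sub.bd (Q : Sub A) : ∀ n, Submodule k (A.X n)
  | 0 => ⊥
  | n + 1 => (Q.S n).map (A.d n)

/-- `f` is zero on `H^n` from `P` to `Q`. -/
def NullOn (f : Hom A B) (P : Sub A) (Q : Sub B) (n : ℕ) : Prop :=
  ∀ x ∈ P.S n, A.d n x = 0 → f.app n x ∈ Q.bd n

theorem Sub.coe_d (P : Sub A) (n : ℕ) (x : P.cos.X n) : (P.cos.d n x).1 = A.d n x.1 :=
  P.incl.map_d n x

theorem Sub.mem_bd_iff (P : Sub A) (n : ℕ) (x : P.cos.X n) : x ∈ P.cos.bd n ↔ x.1 ∈ P.bd n := by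
  cases n with
  | zero => simp only [Cos.bd, Sub.bd, Submodule.mem_bot]; exact Subtype.ext_iff
  | succ n =>
    constructor
    · rintro ⟨y, rfl⟩; exact ⟨y.1, y.2, (P.coe_d n y).symm⟩
    · rintro ⟨y, hy, e⟩; exact ⟨⟨y, hy⟩, Subtype.ext ((P.coe_d n ⟨y, hy⟩).trans e)⟩

theorem null_res_iff (f : Hom A B) (P : Sub A) (Q : Sub B) (h : ∀ n, ∀ x ∈ P.S n, f.app n x ∈ Q.S n)
    (n : ℕ) : Null (f.res P Q h) n ↔ NullOn f P Q n := by
  constructor
  · intro H x hx hd
    exact (Q.mem_bd_iff n _).1 (H ⟨x, hx⟩ (Subtype.ext ((P.coe_d n ⟨x, hx⟩).trans hd)))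
  · intro H x hd
    exact (Q.mem_bd_iff n _).2 (H x.1 x.2 ((P.coe_d n x).symm.trans (congrArg Subtype.val hd)))

end Sub

/-- Constant object. -/
@[reducible] def const (k : Type) [CommRing k] (M : Type u) [AddCommGroup M] [Module k M] : Cos.{u} k where
  X _ := M
  map _ := LinearMap.id
  map_id _ _ := rfl
  map_comp _ _ _ := rfl

/-- Product. -/
@[reducible] def prod (A : Cos.{u} k) (B : Cos.{v} k) : Cos.{max u v} k where
  X n := A.X n × B.X n
  map f := (A.map f).prodMap (B.map f)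
  map_id n _ := Prod.ext (A.map_id n _) (B.map_id n _)
  map_comp f g _ := Prod.ext (A.map_comp f g _) (B.map_comp f g _)

/-- Levelwise tensor product. -/
@[reducible] noncomputable def tens (A : Cos.{u} k) (B : Cos.{v} k) : Cos.{max u v} k where
  X n := A.X n ⊗[k] B.X n
  map f := TensorProduct.map (A.map f) (B.map f)
  map_id n x := by
    induction x with
    | zero => simp
    | tmul a b => simp [A.map_id, B.map_id]
    | add a b ha hb => rw [map_add, ha, hb]
  map_comp f g x := by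
    induction x with
    | zero => simp
    | tmul a b => simp [A.map_comp, B.map_comp]
    | add a b ha hb => simp only [map_add, ha, hb]

/-- Tensor product of maps. -/
noncomputable def Hom.tens {A A' : Cos.{u} k} {B B' : Cos.{v} k} (f : Hom A A') (g : Hom B B') :
    Hom (Cs.tens A B) (Cs.tens A' B') :=
  ⟨fun n => TensorProduct.map (f.app n) (g.app n), fun h x => by
    induction x using TensorProduct.induction_on with
    | zero => simp
    | tmul a b => simp [f.nat, g.nat]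
    | add a b ha hb => simp only [map_add, ha, hb]⟩

/-- Functions on colourings. -/
@[reducible] def fn (B : Cos.{u} k) : Cos.{u} k where
  X n := (Fin (n + 1) → Bool) → B.X n
  map f := LinearMap.pi fun χ => (B.map f).comp (LinearMap.proj (χ ∘ f))
  map_id n _ := funext fun _ => B.map_id n _
  map_comp f g _ := funext fun _ => B.map_comp f g _

/-- Evaluation at a constant colouring. -/
def ev (B : Cos.{u} k) (c : Bool) : Hom (fn B) B := ⟨fun _ => LinearMap.proj (fun _ => c), fun _ _ => rfl⟩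

/-- Path object: acyclic, and onto `B` by evaluation at `true`. -/
@[reducible] def path (B : Cos.{u} k) : Cos.{u} k := (ev B false).ker.cos

/-- First projection. -/
def Hom.fst (A : Cos.{u} k) (B : Cos.{v} k) : Hom (prod A B) A := ⟨fun _ => LinearMap.fst k _ _, fun _ _ => rfl⟩

/-- Second projection. -/
def Hom.snd (A : Cos.{u} k) (B : Cos.{v} k) : Hom (prod A B) B := ⟨fun _ => LinearMap.snd k _ _, fun _ _ => rfl⟩

/-- The map whose kernel is the homotopy fibre: `(a, γ) ↦ φ a - γ true`. -/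
def fibMap {A B : Cos.{u} k} (φ : Hom A B) : Hom (prod A (path B)) B :=
  φ.comp (Hom.fst A (path B)) - ((ev B true).comp (ev B false).ker.incl).comp (Hom.snd A (path B))

/-- Homotopy fibre. -/
@[reducible] def fib {A B : Cos.{u} k} (φ : Hom A B) : Cos.{u} k := (fibMap φ).ker.cos

/-- The projection from the fibre. -/
def fibPr {A B : Cos.{u} k} (φ : Hom A B) : Hom (fib φ) A :=
  (Hom.fst A (path B)).comp (fibMap φ).ker.incl

/-- Postcomposition on `fn`. -/
def Hom.fn {B : Cos.{u} k} {B' : Cos.{v} k} (g : Hom B B') : Hom (Cs.fn B) (Cs.fn B') :=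
  ⟨fun n => LinearMap.pi fun χ => (g.app n).comp (LinearMap.proj χ), fun f _ => funext fun _ => g.nat f _⟩

/-- Postcomposition on `path`. -/
def Hom.path {B : Cos.{u} k} {B' : Cos.{v} k} (g : Hom B B') : Hom (Cs.path B) (Cs.path B') :=
  g.fn.res _ _ fun n x hx => by
    change g.app n (x fun _ => false) = 0
    rw [show x (fun _ => false) = 0 from hx, map_zero]

/-- Product of maps. -/
def Hom.prod {A B : Cos.{u} k} {A' B' : Cos.{v} k} (f : Hom A A') (g : Hom B B') : Hom (Cs.prod A B) (Cs.prod A' B') :=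
  ⟨fun n => (f.app n).prodMap (g.app n), fun h _ => Prod.ext (f.nat h _) (g.nat h _)⟩

/-- Functoriality of the fibre. -/
def fibHom {A B : Cos.{u} k} {A' B' : Cos.{v} k} (φ : Hom A B) (φ' : Hom A' B') (f : Hom A A') (g : Hom B B')
    (h : ∀ n x, φ'.app n (f.app n x) = g.app n (φ.app n x)) : Hom (fib φ) (fib φ') :=
  (f.prod g.path).res _ _ fun n x hx => by
    have hx' : φ.app n x.1 - x.2.1 (fun _ => true) = 0 := hx
    change φ'.app n (f.app n x.1) - g.app n (x.2.1 fun _ => true) = 0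
    rw [h, ← map_sub, hx', map_zero]

/-- Short exact sequence. -/
structure SES (K M Q : Cos.{u} k) where
  i : Hom K M
  p : Hom M Q
  inj : ∀ n, Function.Injective (i.app n)
  surj : ∀ n, Function.Surjective (p.app n)
  exact : ∀ n x, p.app n x = 0 ↔ ∃ y, i.app n y = x

/-- Map of short exact sequences. -/
structure SES.Map {K M Q : Cos.{u} k} {K' M' Q' : Cos.{v} k} (S : SES K M Q) (S' : SES K' M' Q') where
  fK : Hom K K'
  fM : Hom M M'
  fQ : Hom Q Q'
  hi : ∀ n x, S'.i.app n (fK.app n x) = fM.app n (S.i.app n x)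
  hp : ∀ n x, S'.p.app n (fM.app n x) = fQ.app n (S.p.app n x)

/-- The sequence of a subobject. -/
def Sub.ses {A : Cos.{u} k} (P : Sub A) : SES P.cos A P.quo where
  i := P.incl
  p := P.mkQ
  inj n := (P.S n).injective_subtype
  surj n := (P.S n).mkQ_surjective
  exact n x := by
    refine (Submodule.Quotient.mk_eq_zero (P.S n)).trans ⟨fun h => ⟨⟨x, h⟩, rfl⟩, ?_⟩
    rintro ⟨y, rfl⟩; exact y.2

/-- Bi-object. -/
structure Bi (k : Type) [CommRing k] where
  X : ℕ → ℕ → Type u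
  [acg : ∀ m n, AddCommGroup (X m n)]
  [mod : ∀ m n, Module k (X m n)]
  map : ∀ {m m' n n' : ℕ}, (Fin (m + 1) → Fin (m' + 1)) → (Fin (n + 1) → Fin (n' + 1)) → X m n →ₗ[k] X m' n'
  map_id : ∀ (m n : ℕ) (x : X m n),
    map (id : Fin (m + 1) → Fin (m + 1)) (id : Fin (n + 1) → Fin (n + 1)) x = x
  map_comp : ∀ {l m n l' m' n' : ℕ} (f : Fin (l + 1) → Fin (m + 1)) (g : Fin (m + 1) → Fin (n + 1))
    (f' : Fin (l' + 1) → Fin (m' + 1)) (g' : Fin (m' + 1) → Fin (n' + 1)) (x : X l l'),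
    map (g ∘ f) (g' ∘ f') x = map g g' (map f f' x)

attribute [instance] Bi.acg Bi.mod

/-- Column `m`: the second variable moves. -/
@[reducible] def Bi.col (T : Bi.{u} k) (m : ℕ) : Cos.{u} k where
  X n := T.X m n
  map g := T.map id g
  map_id n x := T.map_id m n x
  map_comp f g x := T.map_comp id id f g x

/-- Row `n`: the first variable moves. -/
@[reducible] def Bi.row (T : Bi.{u} k) (n : ℕ) : Cos.{u} k where
  X m := T.X m n
  map f := T.map f id
  map_id m x := T.map_id m n x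
  map_comp f g x := T.map_comp f g id id x

/-- Diagonal, the total complex. -/
@[reducible] def Bi.diag (T : Bi.{u} k) : Cos.{u} k where
  X n := T.X n n
  map f := T.map f f
  map_id n x := T.map_id n n x
  map_comp f g x := T.map_comp f g f g x

/-- Exchange of the variables. -/
@[reducible] def Bi.flip (T : Bi.{u} k) : Bi.{u} k where
  X m n := T.X n m
  map f g := T.map g f
  map_id m n x := T.map_id n m x
  map_comp f g f' g' x := T.map_comp f' g' f g x

/-- External tensor product. -/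
@[reducible] noncomputable def btens (A : Cos.{u} k) (B : Cos.{v} k) : Bi.{max u v} k where
  X m n := A.X m ⊗[k] B.X n
  map f g := TensorProduct.map (A.map f) (B.map g)
  map_id m n x := by
    induction x with
    | zero => simp
    | tmul a b => simp [A.map_id, B.map_id]
    | add a b ha hb => rw [map_add, ha, hb]
  map_comp f g f' g' x := by
    induction x with
    | zero => simp
    | tmul a b => simp [A.map_comp, B.map_comp]
    | add a b ha hb => simp only [map_add, ha, hb]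

/-- Map of bi-objects. -/
structure BiHom (T : Bi.{u} k) (U : Bi.{v} k) where
  app : ∀ m n, T.X m n →ₗ[k] U.X m n
  nat : ∀ {m m' n n' : ℕ} (f : Fin (m + 1) → Fin (m' + 1)) (g : Fin (n + 1) → Fin (n' + 1)) (x : T.X m n),
    app m' n' (T.map f g x) = U.map f g (app m n x)

section BiHom
variable {T : Bi.{u} k} {U : Bi.{v} k} {V : Bi.{w} k}

/-- Identity. -/
def BiHom.id (T : Bi.{u} k) : BiHom T T := ⟨fun _ _ => LinearMap.id, fun _ _ _ => rfl⟩

/-- Scalar. -/
def BiHom.scal (T : Bi.{u} k) (t : k) : BiHom T T := ⟨fun _ _ => t • LinearMap.id, fun _ _ _ => by simp⟩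

/-- Composition. -/
def BiHom.comp (g : BiHom U V) (f : BiHom T U) : BiHom T V :=
  ⟨fun m n => (g.app m n).comp (f.app m n), fun _ _ _ => by simp [f.nat, g.nat]⟩

/-- Map on columns. -/
def BiHom.col (f : BiHom T U) (m : ℕ) : Hom (T.col m) (U.col m) := ⟨fun n => f.app m n, fun g x => f.nat _ g x⟩

/-- Map on rows. -/
def BiHom.row (f : BiHom T U) (n : ℕ) : Hom (T.row n) (U.row n) := ⟨fun m => f.app m n, fun g x => f.nat g _ x⟩

/-- Map on diagonals. -/
def BiHom.diag (f : BiHom T U) : Hom T.diag U.diag := ⟨fun n => f.app n n, fun g x => f.nat g g x⟩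

/-- Flip of a map. -/
def BiHom.flip (f : BiHom T U) : BiHom T.flip U.flip := ⟨fun m n => f.app n m, fun g h x => f.nat h g x⟩

end BiHom

/-- `Ghost s N f`: `f` is a composite containing `N` maps, each zero on the cohomology of all columns in
degrees `≤ s`. -/
inductive Ghost (s : ℕ) : ℕ → ∀ {T U : Bi.{u} k}, BiHom T U → Prop
  | zero {T U : Bi.{u} k} (f : BiHom T U) : Ghost s 0 f
  | succ {N : ℕ} {T U V : Bi.{u} k} (f : BiHom T U) (g : BiHom U V) (hf : ∀ m, ∀ j ≤ s, Null (f.col m) j)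
      (hg : Ghost s N g) : Ghost s (N + 1) (g.comp f)

/-- Subobject of a bi-object. -/
structure BiSub (T : Bi.{u} k) where
  S : ∀ m n, Submodule k (T.X m n)
  stab : ∀ {m m' n n' : ℕ} (f : Fin (m + 1) → Fin (m' + 1)) (g : Fin (n + 1) → Fin (n' + 1)) {x : T.X m n},
    x ∈ S m n → T.map f g x ∈ S m' n'

section BiSub
variable {T : Bi.{u} k} {U : Bi.{v} k}

/-- As an object. -/
@[reducible] def BiSub.bi (P : BiSub T) : Bi.{u} k where
  X m n := P.S m n
  map f g := (T.map f g).restrict fun _ hx => P.stab f g hx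
  map_id m n x := Subtype.ext (T.map_id m n x)
  map_comp f g f' g' x := Subtype.ext (T.map_comp f g f' g' x)

/-- Quotient. -/
@[reducible] def BiSub.quo (P : BiSub T) : Bi.{u} k where
  X m n := T.X m n ⧸ P.S m n
  map f g := Submodule.mapQ _ _ (T.map f g) fun _ hx => P.stab f g hx
  map_id m n x := by
    induction x using Submodule.Quotient.induction_on with | H x => simp [T.map_id]
  map_comp f g f' g' x := by
    induction x using Submodule.Quotient.induction_on with | H x => simp [T.map_comp]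

/-- Column of a subobject. -/
def BiSub.col (P : BiSub T) (m : ℕ) : Sub (T.col m) := ⟨fun n => P.S m n, fun g _ hx => P.stab id g hx⟩

/-- Row of a subobject. -/
def BiSub.row (P : BiSub T) (n : ℕ) : Sub (T.row n) := ⟨fun m => P.S m n, fun g _ hx => P.stab g id hx⟩

/-- Diagonal of a subobject. -/
def BiSub.diag (P : BiSub T) : Sub T.diag := ⟨fun n => P.S n n, fun g _ hx => P.stab g g hx⟩

/-- Restriction of a map. -/
def BiHom.res (f : BiHom T U) (P : BiSub T) (Q : BiSub U) (h : ∀ m n, ∀ x ∈ P.S m n, f.app m n x ∈ Q.S m n) :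
    BiHom P.bi Q.bi :=
  ⟨fun m n => (f.app m n).restrict (h m n), fun g g' x => Subtype.ext (f.nat g g' x.1)⟩

/-- Induced map on quotients. -/
def BiHom.quo (f : BiHom T U) (P : BiSub T) (Q : BiSub U) (h : ∀ m n, ∀ x ∈ P.S m n, f.app m n x ∈ Q.S m n) :
    BiHom P.quo Q.quo :=
  ⟨fun m n => Submodule.mapQ _ _ (f.app m n) (h m n), fun g g' x => by
    induction x using Submodule.Quotient.induction_on with
    | H x => exact congrArg Submodule.Quotient.mk (f.nat g g' x)⟩

end BiSub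

/-- An augmentation of the rows of `T`. -/
structure Aug (A : Cos.{u} k) (T : Bi.{v} k) where
  e : Hom A (T.col 0)
  eq : ∀ {m : ℕ} (n : ℕ) (f g : Fin 1 → Fin (m + 1)) (x : A.X n),
    T.map f (id : Fin (n + 1) → Fin (n + 1)) (e.app n x) = T.map g id (e.app n x)

/-- The edge map to the diagonal. -/
def Aug.edge {A : Cos.{u} k} {T : Bi.{v} k} (a : Aug A T) : Hom A T.diag :=
  ⟨fun n => (T.map (fun _ : Fin 1 => (0 : Fin (n + 1))) id).comp (a.e.app n), fun {m n} f x => by
    have h1 : a.e.app n (A.map f x) = T.map id f (a.e.app m x) := a.e.nat f x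
    change T.map _ id (a.e.app n (A.map f x)) = T.map f f (T.map _ id (a.e.app m x))
    rw [← T.map_comp, a.eq n _ (fun _ => f 0), h1, ← T.map_comp]
    rfl⟩

/-- Symmetric cosimplicial commutative algebra. -/
structure CosAlg (k : Type) [CommRing k] where
  X : ℕ → Type u
  [cr : ∀ n, CommRing (X n)]
  [alg : ∀ n, Algebra k (X n)]
  map : ∀ {m n : ℕ}, (Fin (m + 1) → Fin (n + 1)) → X m →ₐ[k] X n
  map_id : ∀ (n : ℕ) (x : X n), map (id : Fin (n + 1) → Fin (n + 1)) x = x
  map_comp : ∀ {l m n : ℕ} (f : Fin (l + 1) → Fin (m + 1)) (g : Fin (m + 1) → Fin (n + 1)) (x : X l),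
    map (g ∘ f) x = map g (map f x)

attribute [instance] CosAlg.cr CosAlg.alg

/-- Underlying module object. -/
@[reducible] def CosAlg.cos (C : CosAlg.{u} k) : Cos.{u} k where
  X := C.X
  map f := (C.map f).toLinearMap
  map_id := C.map_id
  map_comp := C.map_comp

/-- A natural addition law with zero section on the points of `C`. -/
structure Law (C : CosAlg.{u} k) where
  co : ∀ n, C.X n →ₐ[k] C.X n ⊗[k] C.X n
  ep : ∀ n, C.X n →ₐ[k] k
  co_nat : ∀ {m n : ℕ} (f : Fin (m + 1) → Fin (n + 1)) (x : C.X m),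
    co n (C.map f x) = Algebra.TensorProduct.map (C.map f) (C.map f) (co m x)
  ep_nat : ∀ {m n : ℕ} (f : Fin (m + 1) → Fin (n + 1)) (x : C.X m), ep n (C.map f x) = ep m x
  left : ∀ n x, Algebra.TensorProduct.lift ((Algebra.ofId k (C.X n)).comp (ep n)) (AlgHom.id k (C.X n))
    (fun _ _ => .all _ _) (co n x) = x
  right : ∀ n x, Algebra.TensorProduct.lift (AlgHom.id k (C.X n)) ((Algebra.ofId k (C.X n)).comp (ep n))
    (fun _ _ => .all _ _) (co n x) = x

/-- The sum of two points. -/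
noncomputable def Law.add {C : CosAlg.{u} k} (L : Law C) {n : ℕ} {T : Type v} [CommRing T] [Algebra k T]
    (f g : C.X n →ₐ[k] T) : C.X n →ₐ[k] T :=
  (Algebra.TensorProduct.lift f g fun _ _ => .all _ _).comp (L.co n)

/-- Multiplication by `N` on points. -/
noncomputable def Law.pw {C : CosAlg.{u} k} (L : Law C) (n : ℕ) : ℕ → (C.X n →ₐ[k] C.X n)
  | 0 => (Algebra.ofId k (C.X n)).comp (L.ep n)
  | N + 1 => L.add (AlgHom.id k (C.X n)) (L.pw n N)

/-- `G` is stable under the law. -/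
def Law.Stab {C : CosAlg.{u} k} (L : Law C) (G : Sub C.cos) : Prop :=
  ∀ n, ∀ x ∈ G.S n, (L.co n x : C.X n ⊗[k] C.X n) ∈ LinearMap.range (TensorProduct.mapIncl (G.S n) (G.S n))

/-! ## Statements -/

/-- `d ∘ d = 0`. -/
def DD : Prop := ∀ (k : Type) [CommRing k] (A : Cos.{u} k) (n : ℕ) (x : A.X n), A.d (n + 1) (A.d n x) = 0

/-- Homotopy: a family of maps natural in two-coloured sets. -/
def HTPY : Prop := ∀ (k : Type) [CommRing k] (A : Cos.{u} k) (B : Cos.{v} k)
  (H : ∀ n, (Fin (n + 1) → Bool) → A.X n →ₗ[k] B.X n),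
  (∀ (m n : ℕ) (f : Fin (m + 1) → Fin (n + 1)) (χ : Fin (n + 1) → Bool) (x : A.X m),
    H n χ (A.map f x) = B.map f (H m (χ ∘ f) x)) →
  ∀ (n : ℕ) (x : A.X n), A.d n x = 0 → H n (fun _ => true) x - H n (fun _ => false) x ∈ B.bd n

/-- Two out of three, middle term. -/
def SESMID : Prop := ∀ (k : Type) [CommRing k] (K M Q : Cos.{u} k) (K' M' Q' : Cos.{v} k) (K'' M'' Q'' : Cos.{w} k)
  (S : SES K M Q) (S' : SES K' M' Q') (S'' : SES K'' M'' Q'') (f : S.Map S') (g : S'.Map S'') (n : ℕ),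
  Null f.fQ n → Null g.fK n → Null (g.fM.comp f.fM) n

/-- Two out of three, sub term. -/
def SESSUB : Prop := ∀ (k : Type) [CommRing k] (K M Q : Cos.{u} k) (K' M' Q' : Cos.{v} k) (K'' M'' Q'' : Cos.{w} k)
  (S : SES K M Q) (S' : SES K' M' Q') (S'' : SES K'' M'' Q'') (f : S.Map S') (g : S'.Map S'') (n : ℕ),
  Null f.fM n → (∀ j, j + 1 = n → Null g.fQ j) → Null (g.fK.comp f.fK) n

/-- Two out of three, quotient term. -/
def SESQUO : Prop := ∀ (k : Type) [CommRing k] (K M Q : Cos.{u} k) (K' M' Q' : Cos.{v} k) (K'' M'' Q'' : Cos.{w} k)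
  (S : SES K M Q) (S' : SES K' M' Q') (S'' : SES K'' M'' Q'') (f : S.Map S') (g : S'.Map S'') (n : ℕ),
  Null f.fK (n + 1) → Null g.fM n → Null (g.fQ.comp f.fQ) n

/-- Constant objects and path objects. -/
def CONSTPATH : Prop := ∀ (k : Type) [CommRing k],
  (∀ (M : Type u) [AddCommGroup M] [Module k M] (n : ℕ), Acyc (const k M) (n + 1)) ∧
  (∀ (B : Cos.{u} k) (n : ℕ), Acyc (path B) n) ∧
  (∀ (A B : Cos.{u} k) (φ : Hom A B) (n : ℕ), Function.Surjective ((fibMap φ).app n))

/-- The long exact sequence of the fibre, elementwise and two out of three. -/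
def FIB : Prop := ∀ (k : Type) [CommRing k],
  (∀ (A B : Cos.{u} k) (φ : Hom A B) (n : ℕ) (x : A.X n), A.d n x = 0 →
    (φ.app n x ∈ B.bd n ↔ ∃ z, (fib φ).d n z = 0 ∧ (fibPr φ).app n z = x)) ∧
  ∀ (A B A' B' A'' B'' : Cos.{u} k) (φ : Hom A B) (φ' : Hom A' B') (φ'' : Hom A'' B'')
    (f : Hom A A') (g : Hom B B') (h : ∀ n x, φ'.app n (f.app n x) = g.app n (φ.app n x))
    (f' : Hom A' A'') (g' : Hom B' B'') (h' : ∀ n x, φ''.app n (f'.app n x) = g'.app n (φ'.app n x)) (n : ℕ),
    (Null f n → (∀ j, j + 1 = n → Null g' j) → Null ((fibHom φ' φ'' f' g' h').comp (fibHom φ φ' f g h)) n) ∧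
    (Null g n → Null (fibHom φ' φ'' f' g' h') n → Null (f'.comp f) n) ∧
    (Null (fibHom φ φ' f g h) (n + 1) → Null f' n → Null (g'.comp g) n)

/-- Ghost lemma. -/
def GHOST : Prop := ∀ (k : Type) [CommRing k] (T U : Bi.{u} k) (f : BiHom T U) (s : ℕ),
  Ghost s (s + 1) f → Null f.diag s

/-- Ghost lemma along a chain of subobjects. -/
def GHOSTSUB : Prop := ∀ (k : Type) [CommRing k] (T : Bi.{u} k) (P : ℕ → BiSub T) (s : ℕ),
  (∀ i m n, (P i).S m n ≤ (P (i + 1)).S m n) →
  (∀ i ≤ s, ∀ m, ∀ j ≤ s, NullOn (Hom.id (T.col m)) ((P i).col m) ((P (i + 1)).col m) j) →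
  NullOn (Hom.id T.diag) (P 0).diag (P (s + 1)).diag s

/-- Edge lemma: augmented rows exact up to `t`. -/
def EDGE : Prop := ∀ (k : Type) [CommRing k] (A : Cos.{u} k) (T : Bi.{v} k) (a : Aug A T) (t : k) (s : ℕ),
  (∀ n x, a.e.app n x = 0 → t • x = 0) →
  (∀ n y, (T.row n).d 0 y = 0 → ∃ x, a.e.app n x = t • y) →
  (∀ n j, j + 1 ≤ s → Null (t • Hom.id (T.row n)) (j + 1)) →
  Inj a.edge (t ^ (s + 2)) s ∧ Surj a.edge (t ^ (s + 2)) s

/-- Vanishing range of a bi-object whose rows have a naturally split first differential. -/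
def KUNBI : Prop := ∀ (k : Type) [CommRing k] (T : Bi.{u} k) (b : ℕ) (r : Hom (T.col 1) (T.col 0)),
  (∀ m, ∀ j < b, Acyc (T.col m) j) → (∀ n x, r.app n ((T.row n).d 0 x) = x) → ∀ s ≤ b, Acyc T.diag s

/-- Over a field: tensoring a null map with a vector space, and the vanishing range of a tensor product. -/
def KUN : Prop := ∀ (K : Type) [Field K],
  (∀ (M : Type u) [AddCommGroup M] [Module K M] (B B' : Cos.{u} K) (φ : Hom B B') (j : ℕ),
    Null φ j → Null ((Hom.id (const K M)).tens φ) j) ∧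
  (∀ (A B : Cos.{u} K) (b : ℕ), Acyc A 0 → (∀ j < b, Acyc B j) → ∀ s ≤ b, Acyc (tens A B) s)

/-- Multiplication by `p^r` is trivial on `H^s`, `s < p^r`, at the cost of a factor `p^r` in the filtration. -/
def CONV : Prop := ∀ (K : Type) [Field K] (p : ℕ) [Fact p.Prime] [CharP K p] (C : CosAlg.{u} K) (L : Law C)
  (G : ℕ → Sub C.cos),
  (∀ N n, (1 : C.X n) ∈ (G N).S n) →
  (∀ N n (x y : C.X n), x ∈ (G 1).S n → y ∈ (G N).S n → x * y ∈ (G (N + 1)).S n) →
  L.Stab (G 1) →
  (∀ x ∈ (G 1).S 0, C.cos.d 0 x = 0 → L.ep 0 x = 0 → x = 0) →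
  ∀ (r s : ℕ), s < p ^ r → ∀ x ∈ (G 1).S s, C.cos.d s x = 0 →
    (L.pw s (p ^ r) x - algebraMap K (C.X s) (L.ep s x) : C.X s) ∈ (G (p ^ r)).bd s

/-- The map `x ↦ x + z(x)` on points acts as the identity on `H^s` after a shift. -/
def CONVHC : Prop := ∀ (K : Type) [Field K] (C : CosAlg.{u} K) (L : Law C) (G Q : Sub C.cos) (P : ℕ → Sub C.cos)
  (z : ∀ n, C.X n →ₐ[K] C.X n) (s : ℕ),
  (∀ (m n : ℕ) (f : Fin (m + 1) → Fin (n + 1)) (x : C.X m), z n (C.map f x) = C.map f (z m x)) →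
  L.Stab G →
  (∀ n (x : C.X n), x ∈ G.S n → x - algebraMap K (C.X n) (L.ep n x) ∈ (P 0).S n) →
  (∀ i n, (P i).S n ≤ (P (i + 1)).S n) →
  (∀ i ≤ s, ∀ j ≤ s, NullOn (Hom.id C.cos) (P i) (P (i + 1)) j) →
  (∀ n (x y : C.X n), x ∈ G.S n → y ∈ (P (s + 1)).S n → x * z n y ∈ Q.S n) →
  ∀ x ∈ G.S s, C.cos.d s x = 0 → (L.add (AlgHom.id K (C.X s)) (z s) x - x : C.X s) ∈ Q.bd s

end P261.Cs
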