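import Vale.Agent.P261Z.Cs.Defs

/-!
# P261, layer Cs: multiplication by a power of `p` is trivial in low degrees
-/

namespace P261.Cs

open scoped TensorProduct

universe u

namespace ConvAux

variable {K : Type} [Field K] {C : CosAlg.{u} K} (L : Law C)

/-- the unit of the convolution -/
noncomputable def e (n : ℕ) : C.X n →ₗ[K] C.X n :=
  (Algebra.linearMap K (C.X n)).comp (L.ep n).toLinearMap

/-- convolution with `f` -/
noncomputable def cv (n : ℕ) (f : C.X n →ₗ[K] C.X n) : Module.End K (C.X n →ₗ[K] C.X n) :=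
  (LinearMap.llcomp K _ _ _ (LinearMap.mul' K (C.X n))).comp
    ((LinearMap.lcomp K _ (L.co n).toLinearMap).comp
      (TensorProduct.mapBilinear (.id K) (C.X n) (C.X n) (C.X n) (C.X n) f))

theorem cv_apply (n : ℕ) (f g : C.X n →ₗ[K] C.X n) (x : C.X n) :
    cv L n f g x = LinearMap.mul' K (C.X n) (TensorProduct.map f g (L.co n x)) := rfl

theorem lift_eq {n : ℕ} (f g : C.X n →ₐ[K] C.X n) (y : C.X n ⊗[K] C.X n) :
    Algebra.TensorProduct.lift f g (fun _ _ => .all _ _) y =
      LinearMap.mul' K (C.X n) (TensorProduct.map f.toLinearMap g.toLinearMap y) := by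
  induction y with
  | zero => simp
  | tmul a b => simp
  | add a b ha hb => simp only [map_add, ha, hb]

theorem cv_id (n : ℕ) : cv L n LinearMap.id = cv L n (LinearMap.id - e L n) + 1 := by
  ext g x
  have h1 : ∀ y : C.X n ⊗[K] C.X n, LinearMap.mul' K (C.X n) (TensorProduct.map LinearMap.id g y) =
      LinearMap.mul' K (C.X n) (TensorProduct.map (LinearMap.id - e L n) g y) +
        g (Algebra.TensorProduct.lift ((Algebra.ofId K (C.X n)).comp (L.ep n))
          (AlgHom.id K (C.X n)) (fun _ _ => .all _ _) y) := fun y => by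
    induction y with
    | zero => simp
    | tmul a b => simp [e, sub_mul, ← Algebra.smul_def, Algebra.ofId_apply]
    | add a b ha hb => simp only [map_add, ha, hb]; abel
  change cv L n LinearMap.id g x = cv L n (LinearMap.id - e L n) g x + g x
  rw [cv_apply, cv_apply, h1, L.left]

theorem pw_eq (n N : ℕ) :
    (L.pw n N).toLinearMap = ((cv L n (LinearMap.id - e L n) + 1) ^ N) (e L n) := by
  induction N with
  | zero => rfl
  | succ N ih =>
    rw [pow_succ', Module.End.mul_apply, ← ih, ← cv_id]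
    exact LinearMap.ext fun x => lift_eq _ _ _

theorem pw_pow (p : ℕ) [Fact p.Prime] [CharP K p] (n r : ℕ) (x : C.X n) :
    L.pw n (p ^ r) x - algebraMap K (C.X n) (L.ep n x) =
      (cv L n (LinearMap.id - e L n) ^ p ^ r) (e L n) x := by
  have h0 : (p : Module.End K (C.X n →ₗ[K] C.X n)) = 0 := by
    rw [← map_natCast (algebraMap K _), CharP.cast_eq_zero, map_zero]
  have h1 := pw_eq L n (p ^ r)
  rw [(Commute.one_right _).add_pow_prime_pow_eq' Fact.out, h0, zero_mul, add_zero, one_pow] at h1
  rw [sub_eq_iff_eq_add]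
  exact LinearMap.congr_fun h1 x

/-- the reduced part -/
def red (G : Sub C.cos) : Sub C.cos := G.inf ⟨fun n => LinearMap.ker (L.ep n).toLinearMap,
  fun f x hx => (L.ep_nat f x).trans hx⟩

/-- the projection to the reduced part -/
noncomputable def pr (G : Sub C.cos) (h : ∀ n, (1 : C.X n) ∈ G.S n) : Hom G.cos (red L G).cos :=
  Hom.res (A := C.cos) (B := C.cos) ⟨fun n => LinearMap.id - e L n, fun f x => by
    change C.map f x - algebraMap K _ (L.ep _ (C.map f x)) = C.map f (x - algebraMap K _ (L.ep _ x))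
    rw [L.ep_nat, map_sub, AlgHom.commutes]⟩ G _ fun n x hx => ⟨sub_mem hx (by
      change algebraMap K _ (L.ep n x) ∈ _
      rw [Algebra.algebraMap_eq_smul_one]
      exact Submodule.smul_mem _ _ (h n)), by
      change L.ep n (x - algebraMap K _ (L.ep n x)) = 0
      rw [map_sub, AlgHom.commutes]
      exact sub_self _⟩

theorem incl_inj {M : Type u} [AddCommGroup M] [Module K M] (P Q : Submodule K M) :
    Function.Injective (TensorProduct.mapIncl P Q) :=
  TensorProduct.map_injective_of_flat_flat _ _ P.injective_subtype Q.injective_subtype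

theorem exists_co (G : Sub C.cos) (h : L.Stab G) : ∃ c : Hom G.cos (tens G.cos G.cos),
    ∀ n x, TensorProduct.mapIncl (G.S n) (G.S n) (c.app n x) = L.co n x.1 := by
  have h1 : ∀ n, ∃ c : G.S n →ₗ[K] G.S n ⊗[K] G.S n,
      ∀ x, TensorProduct.mapIncl (G.S n) (G.S n) (c x) = L.co n x.1 := fun n =>
    ⟨LinearMap.codRestrictOfInjective ((L.co n).toLinearMap.comp (G.S n).subtype) _
      (incl_inj _ _) fun x => h n x.1 x.2,
      fun x => LinearMap.codRestrictOfInjective_comp_apply _ _ _ _ x⟩
  choose c hc using h1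
  refine ⟨⟨c, fun {m n} f x => incl_inj _ _ ?_⟩, hc⟩
  refine ((hc n _).trans (L.co_nat f x.1)).trans ?_
  rw [← hc m x]
  generalize c m x = y
  induction y with
  | zero => simp
  | tmul a b => rfl
  | add a b ha hb => simp only [map_add, ha, hb]

theorem exists_mul (P Q R : Sub C.cos)
    (h : ∀ n (x y : C.X n), x ∈ P.S n → y ∈ Q.S n → x * y ∈ R.S n) :
    ∃ μ : Hom (tens P.cos Q.cos) R.cos, ∀ n (x : P.S n) (y : Q.S n),
      (μ.app n (x ⊗ₜ y)).1 = (x.1 * y.1 : C.X n) := by
  refine ⟨⟨fun n => LinearMap.codRestrict (R.S n)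
    ((LinearMap.mul' K (C.X n)).comp (TensorProduct.mapIncl (P.S n) (Q.S n))) fun y => ?_,
    fun {m n} f y => Subtype.ext ?_⟩, fun _ _ _ => rfl⟩
  · induction y using TensorProduct.induction_on with
    | zero => simp
    | tmul a b => exact h n _ _ a.2 b.2
    | add a b ha hb => rw [map_add]; exact add_mem ha hb
  · induction y using TensorProduct.induction_on with
    | zero => simp
    | tmul a b => exact (map_mul (C.map f) a.1 b.1).symm
    | add a b ha hb => simp only [map_add, Submodule.coe_add, ha, hb]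

end ConvAux

open ConvAux in
theorem conv (h : KUN.{u}) : CONV.{u} := by
  intro K _ p _ _ C L G h1 h2 h3 h4 r s hs x hx hd
  obtain ⟨c, hc⟩ := exists_co L (G 1) h3
  have a0 : Acyc (red L (G 1)).cos 0 := fun y hy => Subtype.ext (h4 y.1 y.2.1
    ((Sub.coe_d _ 0 y).symm.trans (congrArg Subtype.val hy)) y.2.2)
  have key : ∀ N, ∃ (T : Cos.{u} K) (Φ : Hom (G 1).cos T) (μ : Hom T (G N).cos),
      (∀ j < N, Acyc T j) ∧ ∀ n y, (μ.app n (Φ.app n y)).1 =
        (cv L n (LinearMap.id - e L n) ^ N) (e L n) y.1 := by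
    intro N
    induction N with
    | zero =>
      refine ⟨const K (ULift.{u} K),
        ⟨fun n => ULift.moduleEquiv.symm.toLinearMap.comp ((L.ep n).toLinearMap.comp
          ((G 1).S n).subtype), fun f y => congrArg ULift.up (L.ep_nat f y.1)⟩,
        ⟨fun n => LinearMap.codRestrict _ ((Algebra.linearMap K (C.X n)).comp
          ULift.moduleEquiv.toLinearMap) fun t => ?_,
          fun f t => Subtype.ext ((C.map f).commutes _).symm⟩,
        fun j hj => absurd hj (Nat.not_lt_zero j), fun _ _ => rfl⟩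
      change algebraMap K _ t.down ∈ _
      rw [Algebra.algebraMap_eq_smul_one]
      exact Submodule.smul_mem _ _ (h1 0 n)
    | succ N ih =>
      obtain ⟨T, Φ, μ, b1, b2⟩ := ih
      obtain ⟨m, hm⟩ := exists_mul (red L (G 1)) (G N) (G (N + 1))
        fun n a b ha hb => h2 N n a b ha.1 hb
      refine ⟨tens (red L (G 1)).cos T, ((pr L (G 1) (h1 1)).tens Φ).comp c,
        m.comp ((Hom.id _).tens μ), fun j hj => (h K).2 _ _ N a0 b1 j (Nat.lt_succ_iff.1 hj),
        fun n y => ?_⟩
      rw [pow_succ', Module.End.mul_apply, cv_apply, ← hc n y, Hom.comp_app, Hom.comp_app]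
      generalize c.app n y = z
      induction z using TensorProduct.induction_on with
      | zero => simp
      | tmul a b => exact (hm n _ _).trans (congrArg (fun t : C.X n => _ * t) (b2 n b))
      | add a b ha hb => simp only [map_add, Submodule.coe_add, ha, hb]
  obtain ⟨T, Φ, μ, b1, b2⟩ := key (p ^ r)
  rw [pw_pow, ← b2 s ⟨x, hx⟩]
  exact (Sub.mem_bd_iff _ s _).1 (μ.map_bd (b1 s hs _ (Φ.map_cocycle
    (Subtype.ext ((Sub.coe_d _ s ⟨x, hx⟩).trans hd)))))

end P261.Cs
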