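import Vale.Agent.P261Z.Cs.Defs

/-!
# P261, shared layer Cs: the row `CONVHC`
-/

set_option linter.all false

namespace P261.Cs

open scoped TensorProduct

universe u v w

namespace ConvHcAux

variable {K : Type} [Field K]

/-- A column of an external tensor product, compared with the tensor product with a constant object. -/
noncomputable def toT (A B : Cos.{u} K) (m : ℕ) : Hom ((btens A B).col m) (tens (const K (A.X m)) B) :=
  ⟨fun _ => LinearMap.id, fun f x => by
    have e : A.map (id : Fin (m + 1) → Fin (m + 1)) = LinearMap.id := LinearMap.ext (A.map_id m)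
    change TensorProduct.map (A.map id) (B.map f) x = TensorProduct.map LinearMap.id (B.map f) x
    rw [e]⟩

/-- The inverse comparison. -/
noncomputable def ofT (A B : Cos.{u} K) (m : ℕ) : Hom (tens (const K (A.X m)) B) ((btens A B).col m) :=
  ⟨fun _ => LinearMap.id, fun f x => by
    have e : A.map (id : Fin (m + 1) → Fin (m + 1)) = LinearMap.id := LinearMap.ext (A.map_id m)
    change TensorProduct.map LinearMap.id (B.map f) x = TensorProduct.map (A.map id) (B.map f) x
    rw [e]⟩

/-- The map of external tensor products given by a map of the second factor. -/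
noncomputable def bmap (A : Cos.{u} K) {B B' : Cos.{u} K} (φ : Hom B B') : BiHom (btens A B) (btens A B') :=
  ⟨fun m n => TensorProduct.map LinearMap.id (φ.app n), fun f g x => by
    induction x using TensorProduct.induction_on with
    | zero => simp
    | tmul a b => simp [φ.nat]
    | add a b ha hb => simp only [map_add, ha, hb]⟩

theorem bmap_null (h : KUN.{u}) (A : Cos.{u} K) {B B' : Cos.{u} K} (φ : Hom B B') (m j : ℕ) (hφ : Null φ j) :
    Null ((bmap A φ).col m) j := by
  have h1 := (((h K).1 (A.X m) B B' φ j hφ).comp_right (toT A B m)).comp_left (ofT A B' m)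
  exact h1.congr fun x => rfl

/-- Inclusion of one subobject in another. -/
def inc {C : Cos.{u} K} (P Q : Sub C) (h : ∀ n, P.S n ≤ Q.S n) : Hom P.cos Q.cos :=
  (Hom.id C).res P Q fun n _ hx => h n hx

theorem le_add {C : Cos.{u} K} (P : ℕ → Sub C) (hP : ∀ i n, (P i).S n ≤ (P (i + 1)).S n) (i N n : ℕ) :
    (P i).S n ≤ (P (i + N)).S n := by
  induction N with
  | zero => exact le_rfl
  | succ N ih => exact ih.trans (hP (i + N) n)

theorem le_of {C : Cos.{u} K} (P : ℕ → Sub C) (hP : ∀ i n, (P i).S n ≤ (P (i + 1)).S n) {i j : ℕ} (h : i ≤ j)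
    (n : ℕ) : (P i).S n ≤ (P j).S n := by
  obtain ⟨N, rfl⟩ := Nat.exists_eq_add_of_le h
  exact le_add P hP i N n

theorem ghost (h : KUN.{u}) (A : Cos.{u} K) {C : Cos.{u} K} (P : ℕ → Sub C) (s : ℕ)
    (hP : ∀ i n, (P i).S n ≤ (P (i + 1)).S n)
    (hN : ∀ i ≤ s, ∀ j ≤ s, NullOn (Hom.id C) (P i) (P (i + 1)) j) (N : ℕ) :
    ∀ (i : ℕ) (hi : i + N = s + 1), ∃ F : BiHom (btens A (P i).cos) (btens A (P (s + 1)).cos), Ghost s N F ∧
      ∀ m n x, F.app m n x = (bmap A (inc (P i) (P (s + 1)) (le_of P hP (by omega)))).app m n x := by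
  induction N with
  | zero => intro i hi; exact ⟨_, Ghost.zero _, fun _ _ _ => rfl⟩
  | succ N ih =>
    intro i hi
    obtain ⟨F, hF, e⟩ := ih (i + 1) (by omega)
    refine ⟨F.comp (bmap A (inc (P i) (P (i + 1)) (hP i))), Ghost.succ _ _ (fun m j hj => ?_) hF, ?_⟩
    · exact bmap_null h A _ m j ((null_res_iff _ _ _ _ j).2 (hN i (by omega) j hj))
    · intro m n x
      change F.app m n ((bmap A (inc (P i) (P (i + 1)) (hP i))).app m n x) = _
      rw [e]
      induction x using TensorProduct.induction_on with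
      | zero => simp
      | tmul a b => rfl
      | add a b ha hb => simp only [map_add, ha, hb]

/-- The comultiplication as a natural map. -/
noncomputable def coH {C : CosAlg.{u} K} (L : Law C) : Hom C.cos (tens C.cos C.cos) :=
  ⟨fun n => (L.co n).toLinearMap, fun f x => L.co_nat f x⟩

/-- `b ↦ b - ep b`. -/
def red {C : CosAlg.{u} K} (L : Law C) (G P : Sub C.cos)
    (h : ∀ n (x : C.X n), x ∈ G.S n → x - algebraMap K (C.X n) (L.ep n x) ∈ P.S n) : Hom G.cos P.cos :=
  Hom.res (A := C.cos) (B := C.cos)
    ⟨fun n => LinearMap.id - (Algebra.linearMap K (C.X n)).comp (L.ep n).toLinearMap, fun f x => by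
      change C.map f x - algebraMap K _ (L.ep _ (C.map f x)) = C.map f (x - algebraMap K _ (L.ep _ x))
      rw [L.ep_nat, map_sub, AlgHom.commutes]⟩ G P h

/-- `a ⊗ y ↦ a * z y`. -/
noncomputable def mulz {C : CosAlg.{u} K} (z : ∀ n, C.X n →ₐ[K] C.X n)
    (hz : ∀ (m n : ℕ) (f : Fin (m + 1) → Fin (n + 1)) (x : C.X m), z n (C.map f x) = C.map f (z m x)) :
    Hom (tens C.cos C.cos) C.cos :=
  ⟨fun n => (Algebra.TensorProduct.lift (AlgHom.id K (C.X n)) (z n) fun _ _ => .all _ _).toLinearMap,
    fun f x => by
      induction x using TensorProduct.induction_on with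
      | zero => simp
      | tmul a b =>
        change C.map f a * z _ (C.map f b) = C.map f (a * z _ b)
        rw [hz, map_mul]
      | add a b ha hb => simp only [map_add, ha, hb]⟩

/-- A natural map with values in a subobject. -/
def cod {A C : Cos.{u} K} (f : Hom A C) (Q : Sub C) (h : ∀ n x, f.app n x ∈ Q.S n) : Hom A Q.cos :=
  ⟨fun n => (f.app n).codRestrict _ (h n), fun g x => Subtype.ext (f.nat g x)⟩

end ConvHcAux

open ConvHcAux in
theorem convhc (h : KUN.{u}) (hg : GHOST.{u}) : CONVHC.{u} := by
  intro K _ C L G Q P z s hz hS hG hP hN hQ x hx hd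
  obtain ⟨t, ht⟩ := hS s x hx
  have ht' : (G.incl.tens G.incl).app s t = L.co s x := ht
  have hdt : (tens G.cos G.cos).d s t = 0 := by
    have hinj : Function.Injective ((G.incl.tens G.incl).app (s + 1)) :=
      TensorProduct.map_injective_of_flat_flat _ _ (G.S (s + 1)).subtype_injective
        (G.S (s + 1)).subtype_injective
    apply hinj
    rw [Hom.map_d, map_zero, ht']
    exact (coH L).map_cocycle hd
  obtain ⟨F, hF, e⟩ := ghost h G.cos P s hP hN (s + 1) 0 (by omega)
  have h1 := hg K _ _ F s hF _ (((Hom.id G.cos).tens (red L G (P 0) hG)).map_cocycle hdt)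
  have hμ : ∀ n y, ((mulz z hz).comp (G.incl.tens (P (s + 1)).incl)).app n y ∈ Q.S n := by
    intro n y
    induction y using TensorProduct.induction_on with
    | zero => rw [map_zero]; exact zero_mem _
    | tmul a b => exact hQ n a.1 b.1 a.2 b.2
    | add a b ha hb => rw [map_add]; exact add_mem ha hb
  have h2 := (Q.mem_bd_iff s _).1 ((cod _ Q hμ).map_bd h1)
  have h3 : ((cod _ Q hμ).app s (F.diag.app s (((Hom.id G.cos).tens (red L G (P 0) hG)).app s t))).1 =
      (L.add (AlgHom.id K (C.X s)) (z s) x - x : C.X s) := by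
    have e1 : (L.add (AlgHom.id K (C.X s)) (z s) x - x : C.X s) =
        Algebra.TensorProduct.lift (AlgHom.id K (C.X s)) (z s) (fun _ _ => .all _ _) (L.co s x) -
        Algebra.TensorProduct.lift (AlgHom.id K (C.X s)) ((Algebra.ofId K (C.X s)).comp (L.ep s))
          (fun _ _ => .all _ _) (L.co s x) := by
      rw [L.right]; rfl
    rw [e1, ← ht']
    change (((mulz z hz).comp (G.incl.tens (P (s + 1)).incl)).app s
      (F.app s s (((Hom.id G.cos).tens (red L G (P 0) hG)).app s t))) = _
    rw [e]
    clear ht ht' hdt h1 h2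
    induction t using TensorProduct.induction_on with
    | zero => simp
    | tmul a b =>
      change a.1 * z s (b.1 - algebraMap K _ (L.ep s b.1)) = a.1 * z s b.1 - a.1 * algebraMap K _ (L.ep s b.1)
      rw [map_sub, AlgHom.commutes, mul_sub]
    | add a b ha hb => simp only [map_add, ha, hb]; ring
  rw [← h3]
  exact h2

end P261.Cs
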