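import Vale.Agent.P261Z.Cs.Defs

/-!
# P261, shared layer Cs: the edge lemma
-/

namespace P261.Cs

universe u v w

namespace EdgeAux

variable {k : Type} [CommRing k]

/-- Iterated scalar. -/
def pw (U : Bi.{v} k) (t : k) : ℕ → BiHom U U
  | 0 => BiHom.id U
  | N + 1 => (pw U t N).comp (BiHom.scal U t)

theorem pw_app (U : Bi.{v} k) (t : k) (N m n : ℕ) (x : U.X m n) :
    (pw U t N).app m n x = t ^ N • x := by
  induction N generalizing x with
  | zero => exact (one_smul k x).symm.trans (by rw [pow_zero])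
  | succ N ih => exact (ih (t • x)).trans (by rw [smul_smul, pow_succ])

theorem ghost_pw (U : Bi.{v} k) (t : k) (j : ℕ)
    (hU : ∀ m, ∀ i ≤ j, Null ((BiHom.scal U t).col m) i) (N : ℕ) : Ghost j N (pw U t N) := by
  induction N with
  | zero => exact .zero _
  | succ N ih => exact .succ _ _ hU ih

theorem d_bd (hd : DD.{v}) {B : Cos.{v} k} {n : ℕ} {b : B.X n} (hb : b ∈ B.bd n) : B.d n b = 0 := by
  cases n with
  | zero => rw [(Submodule.mem_bot k).1 hb, map_zero]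
  | succ n => obtain ⟨y, rfl⟩ := hb; exact hd k B n y

theorem lift_bd {B C : Cos.{v} k} (p : Hom B C) (hp : ∀ n, Function.Surjective (p.app n)) {n : ℕ}
    {c : C.X n} (hc : c ∈ C.bd n) : ∃ b ∈ B.bd n, p.app n b = c := by
  cases n with
  | zero => exact ⟨0, zero_mem _, by rw [(Submodule.mem_bot k).1 hc, map_zero]⟩
  | succ n =>
    obtain ⟨y, rfl⟩ := hc
    obtain ⟨z, rfl⟩ := hp n y
    exact ⟨_, ⟨z, rfl⟩, p.map_d n z⟩

variable {A : Cos.{u} k} {T : Bi.{v} k}

theorem inj0 (T : Bi.{v} k) (m n : ℕ) {x : T.X 0 n}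
    (h : T.map (fun _ : Fin 1 => (0 : Fin (m + 1))) id x = 0) : x = 0 := by
  have h1 := congrArg (T.map (fun _ : Fin (m + 1) => (0 : Fin 1)) (id : Fin (n + 1) → _)) h
  rw [← T.map_comp, map_zero, Subsingleton.elim (_ ∘ _ : Fin 1 → Fin 1) id] at h1
  exact (T.map_id 0 n x).symm.trans h1

/-- The image of the augmentation. -/
def bar (a : Aug A T) : BiSub T where
  S m n := (LinearMap.range (a.e.app n)).map (T.map (fun _ : Fin 1 => (0 : Fin (m + 1))) id)
  stab := by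
    rintro m m' n n' f g _ ⟨_, ⟨x, rfl⟩, rfl⟩
    refine ⟨_, ⟨A.map g x, rfl⟩, ?_⟩
    have h1 : a.e.app n' (A.map g x) = T.map id g (a.e.app n x) := a.e.nat g x
    rw [← T.map_comp, a.eq n' _ (fun _ => f 0), h1, ← T.map_comp]
    rfl

/-- The rows of the image are constant. -/
def kap (a : Aug A T) (n : ℕ) : Hom (const k (LinearMap.range (a.e.app n))) (T.row n) where
  app m := (T.map (fun _ : Fin 1 => (0 : Fin (m + 1))) id).comp (Submodule.subtype _)
  nat := by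
    rintro m m' f ⟨_, x, rfl⟩
    change T.map _ id (a.e.app n x) = T.map f id (T.map _ id (a.e.app n x))
    rw [← T.map_comp]
    exact a.eq n _ _ x

theorem row_null (hd : DD.{v}) (hc : CONSTPATH.{v}) (a : Aug A T) (t : k) (j n : ℕ)
    (h2 : ∀ y, (T.row n).d 0 y = 0 → ∃ x, a.e.app n x = t • y)
    (h3 : ∀ i, i + 1 = j → Null (t • Hom.id (T.row n)) (i + 1)) :
    Null ((BiHom.scal (bar a).quo.flip t).col n) j := by
  let p : Hom (T.row n) ((bar a).quo.flip.col n) := ⟨fun m => Submodule.mkQ _, fun _ _ => rfl⟩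
  have hp : ∀ m y, p.app m y = 0 ↔ y ∈ (bar a).S m n := fun m y => Submodule.Quotient.mk_eq_zero _
  intro y hy
  obtain ⟨y, rfl⟩ : ∃ z, p.app j z = y := Submodule.mkQ_surjective _ y
  rw [← p.map_d, hp] at hy
  obtain ⟨x, hx, e⟩ := hy
  have e1 : (kap a n).app (j + 1) ⟨x, hx⟩ = (T.row n).d j y := e
  obtain ⟨z, hz⟩ := (hc k).1 (LinearMap.range (a.e.app n)) j ⟨x, hx⟩ (Subtype.ext (inj0 T (j + 2) n
    (((kap a n).map_d (j + 1) ⟨x, hx⟩).trans (by rw [e1]; exact hd k _ j y))))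
  have e2 : (T.row n).d j (y - (kap a n).app j z) = 0 := by
    rw [map_sub, ← (kap a n).map_d, hz, e1, sub_self]
  have e3 : p.app j (y - (kap a n).app j z) = p.app j y := by
    rw [map_sub, (hp j ((kap a n).app j z)).2 ⟨z.1, z.2, rfl⟩, sub_zero]
  change t • p.app j y ∈ _
  rw [← e3, ← map_smul]
  cases j with
  | zero =>
    obtain ⟨w, hw⟩ := h2 _ e2
    rw [← hw, (hp 0 _).2 ⟨_, ⟨w, rfl⟩, ?_⟩]
    · exact zero_mem _
    · rw [Subsingleton.elim (fun _ : Fin 1 => (0 : Fin 1)) id]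
      exact T.map_id 0 n _
  | succ j => exact p.map_bd (h3 j rfl _ e2)

theorem key (hd : DD.{v}) (h : GHOST.{v}) (hc : CONSTPATH.{v}) (a : Aug A T) (t : k) (j : ℕ)
    (h2 : ∀ n y, (T.row n).d 0 y = 0 → ∃ x, a.e.app n x = t • y)
    (h3 : ∀ n i, i + 1 ≤ j → Null (t • Hom.id (T.row n)) (i + 1)) (y : T.diag.X j)
    (hy : ∃ x, a.edge.app (j + 1) x = T.diag.d j y) :
    ∃ b ∈ T.diag.bd j, ∃ x, a.edge.app j x = t ^ (j + 1) • y - b := by
  let p : Hom T.diag (bar a).quo.flip.diag := ⟨fun m => Submodule.mkQ _, fun _ _ => rfl⟩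
  have hp : ∀ m y, p.app m y = 0 ↔ ∃ x, a.edge.app m x = y := fun m y =>
    (Submodule.Quotient.mk_eq_zero _).trans
      ⟨fun ⟨_, ⟨x, e⟩, e'⟩ => ⟨x, (congrArg _ e).trans e'⟩, fun ⟨x, e⟩ => ⟨_, ⟨x, rfl⟩, e⟩⟩
  have h4 := h k _ _ _ j (ghost_pw (bar a).quo.flip t j (fun n i hi =>
    row_null hd hc a t i n (h2 n) fun l hl => h3 n l (hl ▸ hi)) (j + 1)) (p.app j y)
    (by rw [← p.map_d, hp]; exact hy)
  obtain ⟨b, h5, h6⟩ := lift_bd p (fun _ => Submodule.mkQ_surjective _) h4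
  refine ⟨b, h5, (hp j _).1 ?_⟩
  rw [map_sub, map_smul, h6, sub_eq_zero]
  exact (pw_app (bar a).quo.flip t (j + 1) j j (p.app j y)).symm

end EdgeAux

open EdgeAux

/-- The edge lemma. -/
theorem edge (hd : DD.{v}) (h : GHOST.{v}) (hc : CONSTPATH.{v}) : EDGE.{u, v} := by
  intro k _ A T a t s h1 h2 h3
  have h0 : ∀ n x, a.edge.app n x = 0 → t • x = 0 := fun n x e => h1 n x (inj0 T n n e)
  constructor
  · intro x _ hx
    cases s with
    | zero =>
      rw [pow_succ, mul_smul, h0 0 x ((Submodule.mem_bot k).1 hx), smul_zero]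
      exact zero_mem _
    | succ j =>
      obtain ⟨y, hy⟩ := hx
      obtain ⟨b, h4, z, h5⟩ := key hd h hc a t j h2 (fun n i hi => h3 n i (by omega)) y
        ⟨x, hy.symm⟩
      have h6 := h0 (j + 1) (t ^ (j + 1) • x - A.d j z) (by
        rw [map_sub, map_smul, a.edge.map_d, h5, map_sub, map_smul, d_bd hd h4, hy, sub_zero,
          sub_self])
      rw [smul_sub, sub_eq_zero] at h6
      refine ⟨t • t • z, ?_⟩
      rw [map_smul, map_smul, ← h6, smul_smul, smul_smul]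
      congr 1
      ring
  · intro y hy
    obtain ⟨b, h4, x, h5⟩ := key hd h hc a t s h2 h3 y ⟨0, by rw [map_zero, hy]⟩
    refine ⟨t • x, ?_, ?_⟩
    · rw [map_smul]
      refine h0 _ _ ?_
      rw [a.edge.map_d, h5, map_sub, map_smul, hy, d_bd hd h4, smul_zero, sub_zero]
    · rw [map_smul, h5, smul_sub, smul_smul, ← pow_succ', sub_sub_cancel]
      exact Submodule.smul_mem _ _ h4

end P261.Cs
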