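import Vale.Agent.P261Z.Cs.Defs

/-!
# P261, layer Cs: constant objects, path objects, the homotopy fibre
-/

namespace P261.Cs

universe u v

namespace FibAux

variable {k : Type} [CommRing k]

theorem const_d (M : Type u) [AddCommGroup M] [Module k M] (n : ℕ) (x : M) :
    (const k M).d n x = (∑ i : Fin (n + 2), (-1 : k) ^ (i : ℕ)) • x := by
  rw [Cos.d, LinearMap.sum_apply, Finset.sum_smul]
  rfl

theorem sum_succ (n : ℕ) :
    ∑ i : Fin (n + 1), (-1 : k) ^ (i : ℕ) = 1 - ∑ i : Fin n, (-1 : k) ^ (i : ℕ) := by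
  rw [Fin.sum_univ_succ, sub_eq_add_neg, ← Finset.sum_neg_distrib]
  simp [pow_succ]

/-- The contraction of the path object. -/
def contr (B : Cos.{u} k) (n : ℕ) (χ : Fin (n + 1) → Bool) : (path B).X n →ₗ[k] (path B).X n :=
  (LinearMap.pi fun ψ : Fin (n + 1) → Bool =>
    (LinearMap.proj fun i => ψ i && χ i : (fn B).X n →ₗ[k] B.X n)).restrict fun _ hx => hx

/-- First inclusion. -/
def inl (A : Cos.{u} k) (B : Cos.{v} k) : Hom A (prod A B) :=
  ⟨fun _ => LinearMap.inl k _ _, fun f _ => Prod.ext rfl (map_zero (B.map f)).symm⟩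

/-- Second inclusion. -/
def inr (A : Cos.{u} k) (B : Cos.{v} k) : Hom B (prod A B) :=
  ⟨fun _ => LinearMap.inr k _ _, fun f _ => Prod.ext (map_zero (A.map f)).symm rfl⟩

/-- The end point of a path. -/
def top (B : Cos.{u} k) : Hom (path B) B := (ev B true).comp (ev B false).ker.incl

theorem top_surj (B : Cos.{u} k) (n : ℕ) (y : B.X n) : ∃ γ, (top B).app n γ = y :=
  ⟨⟨fun ψ => if ψ 0 then y else 0, rfl⟩, rfl⟩

theorem mem_bd {A : Cos.{u} k} {B : Cos.{v} k} {n : ℕ} {x : (prod A B).X n} (h1 : x.1 ∈ A.bd n)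
    (h2 : x.2 ∈ B.bd n) : x ∈ (prod A B).bd n := by
  have e : x = (inl A B).app n x.1 + (inr A B).app n x.2 :=
    Prod.ext (add_zero _).symm (zero_add _).symm
  rw [e]
  exact add_mem ((inl A B).map_bd h1) ((inr A B).map_bd h2)

variable {A B A' B' : Cos.{u} k}

/-- The sequence of the fibre. -/
def ses (φ : Hom A B) (h : ∀ n, Function.Surjective ((fibMap φ).app n)) :
    SES (fib φ) (prod A (path B)) B where
  i := (fibMap φ).ker.incl
  p := fibMap φ
  inj _ := Subtype.val_injective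
  surj := h
  exact _ x := ⟨fun hx => ⟨⟨x, hx⟩, rfl⟩, fun ⟨y, e⟩ => e ▸ y.2⟩

/-- Its functoriality. -/
def sesMap {φ : Hom A B} {φ' : Hom A' B'} (s : ∀ n, Function.Surjective ((fibMap φ).app n))
    (s' : ∀ n, Function.Surjective ((fibMap φ').app n)) (f : Hom A A') (g : Hom B B')
    (h : ∀ n x, φ'.app n (f.app n x) = g.app n (φ.app n x)) : (ses φ s).Map (ses φ' s') where
  fK := fibHom φ φ' f g h
  fM := f.prod g.path
  fQ := g
  hi _ _ := rfl
  hp n x := by
    change φ'.app n (f.app n x.1) - g.app n (x.2.1 fun _ => true) =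
      g.app n (φ.app n x.1 - x.2.1 fun _ => true)
    rw [h, map_sub]

theorem null_prod {f : Hom A A'} (g : Hom B B') {n : ℕ} (hB : Acyc (path B) n) (h : Null f n) :
    Null (f.prod g.path) n := fun x hx =>
  mem_bd (h x.1 ((Hom.fst _ _).map_cocycle hx))
    (g.path.map_bd (hB x.2 ((Hom.snd _ _).map_cocycle hx)))

end FibAux

open FibAux

theorem constpath (h : HTPY.{u, u}) : CONSTPATH.{u} := by
  refine fun k _ => ⟨fun M _ _ n x hx => ⟨x, ?_⟩, fun B n x hx => ?_, fun A B φ n y => ?_⟩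
  · rw [const_d, sum_succ, sub_smul, one_smul, sub_eq_zero] at hx
    rw [const_d]
    exact hx.symm
  · have h1 := h k (path B) (path B) (contr B) (fun _ _ _ _ _ => rfl) n x hx
    have e1 : contr B n (fun _ => true) x = x :=
      Subtype.ext (funext fun ψ => congrArg x.1 (funext fun i => Bool.and_true _))
    have e2 : contr B n (fun _ => false) x = 0 :=
      Subtype.ext (funext fun ψ => (congrArg x.1 (funext fun i => Bool.and_false _)).trans x.2)
    rwa [e1, e2, sub_zero] at h1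
  · obtain ⟨γ, e⟩ := top_surj B n (-y)
    refine ⟨(0, γ), ?_⟩
    change φ.app n 0 - (top B).app n γ = y
    rw [e, map_zero, zero_sub, neg_neg]

theorem fib_les (hd : DD.{u}) (h : CONSTPATH.{u}) (h1 : SESMID.{u, u, u}) (h2 : SESSUB.{u, u, u})
    (h3 : SESQUO.{u, u, u}) : FIB.{u} := by
  intro k _
  obtain ⟨-, hp, hs⟩ := h k
  refine ⟨fun A B φ n x hx => ⟨fun hb => ?_, ?_⟩,
    fun A B A' B' A'' B'' φ φ' φ'' f g e f' g' e' n => ⟨fun a b => ?_, fun a b => ?_, fun a b => ?_⟩⟩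
  · obtain ⟨γ, e1, e2⟩ : ∃ γ, (path B).d n γ = 0 ∧ (top B).app n γ = φ.app n x := by
      cases n with
      | zero => exact ⟨0, map_zero _, (map_zero _).trans (Eq.symm hb)⟩
      | succ n =>
        obtain ⟨y, hy⟩ := hb
        obtain ⟨γ, rfl⟩ := top_surj B n y
        exact ⟨_, hd k _ n γ, ((top B).map_d n γ).trans hy⟩
    refine ⟨⟨(x, γ), sub_eq_zero.2 e2.symm⟩, Subtype.ext (((fibMap φ).ker.coe_d n _).trans
      (Prod.ext ?_ ?_)), rfl⟩
    · exact ((Hom.fst A (path B)).map_d n _).trans hx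
    · exact ((Hom.snd A (path B)).map_d n _).trans e1
  · rintro ⟨z, hz, rfl⟩
    have e1 : φ.app n ((fibPr φ).app n z) = (top B).app n z.1.2 := sub_eq_zero.1 z.2
    rw [e1]
    exact (top B).map_bd (hp B n _
      (((Hom.snd A (path B)).comp (fibMap φ).ker.incl).map_cocycle hz))
  · exact h2 k _ _ _ _ _ _ _ _ _ _ _ _ (sesMap (hs _ _ φ) (hs _ _ φ') f g e)
      (sesMap (hs _ _ φ') (hs _ _ φ'') f' g' e') n (null_prod g (hp B n) a) b
  · exact (((h1 k _ _ _ _ _ _ _ _ _ _ _ _ (sesMap (hs _ _ φ) (hs _ _ φ') f g e)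
      (sesMap (hs _ _ φ') (hs _ _ φ'') f' g' e') n a b).comp_right (inl A (path B))).comp_left
      (Hom.fst A'' (path B''))).congr fun _ => rfl
  · exact h3 k _ _ _ _ _ _ _ _ _ _ _ _ (sesMap (hs _ _ φ) (hs _ _ φ') f g e)
      (sesMap (hs _ _ φ') (hs _ _ φ'') f' g' e') n a (null_prod g' (hp B' n) b)

end P261.Cs
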