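import Vale.Agent.P261Z.Cs.Defs

/-!
# P261, shared layer Cs: the ghost lemma for bi-objects

`dec T` adds one base point in the first variable. The sequence `T → dec T → cok T` is short exact and natural,
the diagonal of `dec T` retracts up to homotopy on the column `0` of `T`, and the columns of `cok T` are natural
retracts of the columns of `T`.
-/

namespace P261.Cs

universe u v w

variable {k : Type} [CommRing k]

namespace GhostAux

/-- Extension of a map to one more base point. -/
def up {m n : ℕ} (f : Fin (m + 1) → Fin (n + 1)) : Fin (m + 2) → Fin (n + 2) :=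
  Fin.cons 0 (Fin.succ ∘ f)

@[simp] theorem up_zero {m n : ℕ} (f : Fin (m + 1) → Fin (n + 1)) : up f 0 = 0 := rfl

@[simp] theorem up_succ {m n : ℕ} (f : Fin (m + 1) → Fin (n + 1)) (i : Fin (m + 1)) :
    up f i.succ = (f i).succ := rfl

theorem up_id (m : ℕ) : up (id : Fin (m + 1) → Fin (m + 1)) = id := by
  funext i
  induction i using Fin.cases <;> rfl

theorem up_comp {l m n : ℕ} (f : Fin (l + 1) → Fin (m + 1)) (g : Fin (m + 1) → Fin (n + 1)) :
    up (g ∘ f) = up g ∘ up f := by
  funext i
  induction i using Fin.cases <;> rfl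

/-- Retraction of `Fin.succ`. -/
def ret (m : ℕ) : Fin (m + 2) → Fin (m + 1) := Fin.cons 0 id

theorem ret_succ (m : ℕ) : ret m ∘ Fin.succ = id := rfl

/-- The points of colour `false` go to the base point. -/
def coll {n : ℕ} (χ : Fin (n + 1) → Bool) : Fin (n + 2) → Fin (n + 2) :=
  Fin.cons 0 fun i => if χ i then i.succ else 0

theorem coll_up {m n : ℕ} (f : Fin (m + 1) → Fin (n + 1)) (χ : Fin (n + 1) → Bool) :
    coll χ ∘ up f = up f ∘ coll (χ ∘ f) := by
  funext i
  induction i using Fin.cases with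
  | zero => rfl
  | succ i =>
    change (if χ (f i) then (f i).succ else 0) = up f (if χ (f i) then i.succ else 0)
    split_ifs <;> rfl

theorem coll_true (n : ℕ) : coll (fun _ : Fin (n + 1) => true) = id := by
  funext i
  induction i using Fin.cases <;> rfl

theorem coll_false (n : ℕ) : coll (fun _ : Fin (n + 1) => false) = fun _ => 0 := by
  funext i
  induction i using Fin.cases <;> rfl

theorem biext {T : Bi.{u} k} {U : Bi.{v} k} {f g : BiHom T U} (h : ∀ m n x, f.app m n x = g.app m n x) :
    f = g := by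
  obtain ⟨f, _⟩ := f
  obtain ⟨g, _⟩ := g
  obtain rfl : f = g := funext fun m => funext fun n => LinearMap.ext (h m n)
  rfl

end GhostAux

open GhostAux

/-- One more base point in the first variable. -/
@[reducible] def dec (T : Bi.{u} k) : Bi.{u} k where
  X m n := T.X (m + 1) n
  map f g := T.map (up f) g
  map_id m n x := by rw [up_id, T.map_id]
  map_comp f g f' g' x := by rw [up_comp, T.map_comp]

/-- The inclusion of `T` in `dec T`. -/
def toDec (T : Bi.{u} k) : BiHom T (dec T) :=
  ⟨fun _ _ => T.map Fin.succ id, fun f g x => by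
    change T.map Fin.succ id (T.map f g x) = T.map (up f) g (T.map Fin.succ id x)
    rw [← T.map_comp, ← T.map_comp]
    rfl⟩

theorem toDec_app (T : Bi.{u} k) (m n : ℕ) (x : T.X m n) :
    (toDec T).app m n x = T.map Fin.succ id x := rfl

theorem ret_toDec (T : Bi.{u} k) (m n : ℕ) (x : T.X m n) :
    T.map (ret m) id (T.map Fin.succ id x) = x := by
  rw [← T.map_comp]
  exact T.map_id m n x

theorem toDec_inj (T : Bi.{u} k) (m n : ℕ) : Function.Injective ((toDec T).app m n) :=
  Function.LeftInverse.injective (g := T.map (ret m) id) (ret_toDec T m n)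

/-- The image of `toDec`. -/
def decSub (T : Bi.{u} k) : BiSub (dec T) :=
  ⟨fun m n => LinearMap.range ((toDec T).app m n), fun f g _ ⟨x, hx⟩ =>
    ⟨T.map f g x, by rw [(toDec T).nat, hx]⟩⟩

/-- The cokernel of `toDec`. -/
@[reducible] def cok (T : Bi.{u} k) : Bi.{u} k := (decSub T).quo

/-- The projection to the cokernel. -/
def toCok (T : Bi.{u} k) : BiHom (dec T) (cok T) := ⟨fun m n => ((decSub T).S m n).mkQ, fun _ _ _ => rfl⟩

theorem toCok_surj (T : Bi.{u} k) (m n : ℕ) : Function.Surjective ((toCok T).app m n) :=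
  ((decSub T).S m n).mkQ_surjective

theorem toCok_eq_zero (T : Bi.{u} k) (m n : ℕ) (y : T.X (m + 1) n) :
    (toCok T).app m n y = 0 ↔ ∃ x, (toDec T).app m n x = y :=
  Submodule.Quotient.mk_eq_zero ((decSub T).S m n)

/-- The short exact sequence of diagonals. -/
def decSES (T : Bi.{u} k) : SES T.diag (dec T).diag (cok T).diag where
  i := (toDec T).diag
  p := (toCok T).diag
  inj n := toDec_inj T n n
  surj n := toCok_surj T n n
  exact n := toCok_eq_zero T n n

section Fun
variable {T : Bi.{u} k} {U : Bi.{v} k} {V : Bi.{w} k}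

/-- Functoriality of `dec`. -/
def BiHom.dec (f : BiHom T U) : BiHom (dec T) (dec U) :=
  ⟨fun m n => f.app (m + 1) n, fun g g' x => f.nat (up g) g' x⟩

theorem BiHom.dec_toDec (f : BiHom T U) (m n : ℕ) (x : T.X m n) :
    f.dec.app m n ((toDec T).app m n x) = (toDec U).app m n (f.app m n x) :=
  f.nat Fin.succ _root_.id x

/-- Functoriality of `cok`. -/
def BiHom.cok (f : BiHom T U) : BiHom (cok T) (cok U) :=
  f.dec.quo (decSub T) (decSub U) fun m n _ ⟨x, hx⟩ => ⟨f.app m n x, by rw [← f.dec_toDec, hx]⟩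

theorem BiHom.cok_toCok (f : BiHom T U) (m n : ℕ) (y : T.X (m + 1) n) :
    f.cok.app m n ((toCok T).app m n y) = (toCok U).app m n (f.app (m + 1) n y) := rfl

theorem BiHom.cok_comp (g : BiHom U V) (f : BiHom T U) : (g.comp f).cok = g.cok.comp f.cok :=
  biext fun m n x => by
    obtain ⟨y, rfl⟩ := toCok_surj T m n x
    rfl

/-- Functoriality of the sequence. -/
def decMap (f : BiHom T U) : (decSES T).Map (decSES U) where
  fK := f.diag
  fM := f.dec.diag
  fQ := f.cok.diag
  hi n x := (f.dec_toDec n n x).symm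
  hp _ _ := rfl

end Fun

/-- From the diagonal of `dec T` to the column `0`. -/
def decRho (T : Bi.{u} k) : Hom (dec T).diag (T.col 0) :=
  ⟨fun _ => T.map (fun _ => (0 : Fin 1)) id, fun f x => by
    change T.map _ id (T.map (up f) f x) = T.map id f (T.map _ id x)
    rw [← T.map_comp, ← T.map_comp]
    rfl⟩

/-- From the column `0` to the diagonal of `dec T`. -/
def decSig (T : Bi.{u} k) : Hom (T.col 0) (dec T).diag :=
  ⟨fun n => T.map (fun _ => (0 : Fin (n + 2))) id, fun f x => by
    change T.map _ id (T.map id f x) = T.map (up f) f (T.map _ id x)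
    rw [← T.map_comp, ← T.map_comp]
    rfl⟩

theorem dec_htpy (h : HTPY.{u, u}) (T : Bi.{u} k) (n : ℕ) (y : T.X (n + 1) n) (hy : (dec T).diag.d n y = 0) :
    y - T.map (fun _ => (0 : Fin (n + 2))) id (T.map (fun _ => (0 : Fin 1)) id y) ∈ (dec T).diag.bd n := by
  have h1 := h k (dec T).diag (dec T).diag (fun n χ => T.map (coll χ) id) (fun m n f χ x => by
    change T.map (coll χ) id (T.map (up f) f x) = T.map (up f) f (T.map (coll (χ ∘ f)) id x)
    rw [← T.map_comp, ← T.map_comp, coll_up]
    rfl) n y hy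
  change T.map (coll fun _ => true) id y - T.map (coll fun _ => false) id y ∈ _ at h1
  rw [coll_true, coll_false, T.map_id] at h1
  rw [← T.map_comp]
  exact h1

theorem dec_htpy' (h : HTPY.{u, u}) (T : Bi.{u} k) (n : ℕ) (y : (dec T).diag.X n)
    (hy : (dec T).diag.d n y = 0) : y - (decSig T).app n ((decRho T).app n y) ∈ (dec T).diag.bd n :=
  dec_htpy h T n y hy

/-- The projection from the column `m + 1` of `T` to the column `m` of `cok T`. -/
def cokPr (T : Bi.{u} k) (m : ℕ) : Hom (T.col (m + 1)) ((cok T).col m) :=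
  ⟨fun n => (toCok T).app m n, fun g y => by
    change (toCok T).app m _ (T.map id g y) = (toCok T).app m _ (T.map (up id) g y)
    rw [up_id]⟩

/-- The section of `cokPr`. -/
def cokSec (T : Bi.{u} k) (m : ℕ) : Hom ((cok T).col m) (T.col (m + 1)) :=
  ⟨fun n => ((decSub T).S m n).liftQ (LinearMap.id - T.map (Fin.succ ∘ ret m) id) (by
      rintro _ ⟨x, rfl⟩
      change T.map Fin.succ id x - T.map (Fin.succ ∘ ret m) id (T.map Fin.succ id x) = 0
      rw [← T.map_comp]
      exact sub_self _),
    fun g q => by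
      obtain ⟨y, rfl⟩ := toCok_surj T m _ q
      change T.map (up id) g y - T.map (Fin.succ ∘ ret m) id (T.map (up id) g y) =
        T.map id g (y - T.map (Fin.succ ∘ ret m) id y)
      rw [up_id, map_sub, ← T.map_comp, ← T.map_comp]
      rfl⟩

theorem cokPr_cokSec (T : Bi.{u} k) (m n : ℕ) (q : (cok T).X m n) :
    (cokPr T m).app n ((cokSec T m).app n q) = q := by
  obtain ⟨y, rfl⟩ := toCok_surj T m n q
  change (toCok T).app m n (y - T.map (Fin.succ ∘ ret m) id y) = _
  have h0 : (toCok T).app m n (T.map (Fin.succ ∘ ret m) id y) = 0 :=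
    (toCok_eq_zero T m n _).2 ⟨T.map (ret m) id y, (T.map_comp (ret m) Fin.succ id id y).symm⟩
  rw [map_sub, h0, sub_zero]

theorem null_dec_diag (h : HTPY.{u, u}) {T : Bi.{u} k} {U : Bi.{v} k} (f : BiHom T U) {n : ℕ}
    (hf : Null (f.col 0) n) : Null f.dec.diag n := by
  intro y hy
  have h1 := f.dec.diag.map_bd (dec_htpy' h T n y hy)
  have h2 := (decSig U).map_bd (hf _ ((decRho T).map_cocycle hy))
  have h3 : f.dec.diag.app n ((decSig T).app n ((decRho T).app n y)) =
      (decSig U).app n ((f.col 0).app n ((decRho T).app n y)) := f.nat _ id _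
  rw [map_sub, h3] at h1
  simpa using add_mem h1 h2

theorem null_cok_col {T : Bi.{u} k} {U : Bi.{v} k} (f : BiHom T U) {m n : ℕ}
    (hf : Null (f.col (m + 1)) n) : Null (f.cok.col m) n :=
  ((hf.comp_right (cokSec T m)).comp_left (cokPr U m)).congr fun q => by
    change f.cok.app m n q = f.cok.app m n ((cokPr T m).app n ((cokSec T m).app n q))
    rw [cokPr_cokSec]

theorem Ghost.cok {s N : ℕ} {T U : Bi.{u} k} {f : BiHom T U} (h : Ghost s N f) : Ghost s N f.cok := by
  induction h with
  | zero f => exact Ghost.zero _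
  | succ f g hf _ ih =>
    rw [BiHom.cok_comp]
    exact Ghost.succ _ _ (fun m j hj => null_cok_col f (hf (m + 1) j hj)) ih

theorem GhostAux.ghost_le (h : HTPY.{u, u}) (h2 : SESSUB.{u, u, u}) (s : ℕ) : ∀ (j : ℕ), j ≤ s →
    ∀ (T U : Bi.{u} k) (f : BiHom T U), Ghost s (j + 1) f → Null f.diag j := by
  intro j
  induction j with
  | zero =>
    intro hj T U f hf
    cases hf with
    | succ f g hf hg =>
      exact h2 k _ _ _ _ _ _ _ _ _ _ _ _ (decMap f) (decMap g) 0 (null_dec_diag h f (hf 0 0 hj))
        fun _ e => absurd e (Nat.succ_ne_zero _)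
  | succ j ih =>
    intro hj T U f hf
    cases hf with
    | succ f g hf hg =>
      refine h2 k _ _ _ _ _ _ _ _ _ _ _ _ (decMap f) (decMap g) (j + 1) (null_dec_diag h f (hf 0 _ hj)) ?_
      intro i e
      obtain rfl : i = j := Nat.succ_injective e
      exact ih (Nat.le_of_succ_le hj) _ _ _ hg.cok

theorem ghost (h : HTPY.{u, u}) (h2 : SESSUB.{u, u, u}) : GHOST.{u} :=
  fun _ _ T U f s hf => GhostAux.ghost_le h h2 s s le_rfl T U f hf

theorem ghostsub (h : GHOST.{u}) : GHOSTSUB.{u} := by
  intro k _ T P s hP hN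
  have hm : ∀ {i j : ℕ}, i ≤ j → ∀ m n, ∀ x ∈ (P i).S m n, (BiHom.id T).app m n x ∈ (P j).S m n :=
    fun hij m n => monotone_nat_of_le_succ (f := fun i => (P i).S m n) (fun i => hP i m n) hij
  have key : ∀ (N i : ℕ) (e : i + N = s + 1),
      Ghost s N ((BiHom.id T).res (P i) (P (s + 1)) (hm (e ▸ Nat.le_add_right i N))) := by
    intro N
    induction N with
    | zero => exact fun _ _ => Ghost.zero _
    | succ N ih =>
      intro i e
      have h1 := Ghost.succ ((BiHom.id T).res (P i) (P (i + 1)) (hm (Nat.le_succ i))) _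
        (fun m j hj => (null_res_iff (Hom.id (T.col m)) ((P i).col m) ((P (i + 1)).col m)
          (hm (Nat.le_succ i) m) j).2 (hN i (by omega) m j hj)) (ih (i + 1) (by omega))
      exact h1
  exact (null_res_iff (Hom.id T.diag) (P 0).diag (P (s + 1)).diag
    (fun n => hm (Nat.zero_le _) n n) s).1 (h k _ _ _ s (key (s + 1) 0 (Nat.zero_add _)))

end P261.Cs
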