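import Vale.Agent.P261Z.Cs.Defs

/-!
# P261, layer Cs: vanishing ranges
-/

namespace P261.Cs

open scoped TensorProduct

universe u

namespace KunAux

variable {k : Type} [CommRing k]

/-- extension of a map by a base point -/
def up {m n : ℕ} (f : Fin (m + 1) → Fin (n + 1)) : Fin (m + 2) → Fin (n + 2) :=
  Fin.cases 0 fun i => (f i).succ

theorem up_id (m : ℕ) : up (id : Fin (m + 1) → Fin (m + 1)) = id := by
  funext i
  induction i using Fin.cases <;> rfl

theorem up_comp {l m n : ℕ} (f : Fin (l + 1) → Fin (m + 1)) (g : Fin (m + 1) → Fin (n + 1)) :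
    up (g ∘ f) = up g ∘ up f := by
  funext i
  induction i using Fin.cases <;> rfl

/-- decalage in the first variable -/
@[reducible] def dec (T : Bi.{u} k) : Bi.{u} k where
  X m n := T.X (m + 1) n
  map f g := T.map (up f) g
  map_id m n x := by rw [up_id, T.map_id]
  map_comp f g f' g' x := by rw [up_comp, T.map_comp]

variable (T : Bi.{u} k)

theorem mm {l m n l' m' n' : ℕ} (f : Fin (l + 1) → Fin (m + 1)) (g : Fin (m + 1) → Fin (n + 1))
    (f' : Fin (l' + 1) → Fin (m' + 1)) (g' : Fin (m' + 1) → Fin (n' + 1)) (x : T.X l l') :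
    T.map g g' (T.map f f' x) = T.map (g ∘ f) (g' ∘ f') x := (T.map_comp f g f' g' x).symm

/-- the map to the decalage -/
def toDec : BiHom T (dec T) :=
  ⟨fun _ _ => T.map Fin.succ id,
    fun f g x => (mm T _ _ _ _ x).trans (mm T Fin.succ (up f) id g x).symm⟩

theorem ret (m n : ℕ) (x : T.X m n) :
    T.map (Fin.cases 0 id : Fin (m + 2) → Fin (m + 1)) id ((toDec T).app m n x) = x :=
  (mm T _ _ _ _ x).trans (T.map_id m n x)

theorem toDec_inj (m n : ℕ) : Function.Injective ((toDec T).app m n) :=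
  Function.LeftInverse.injective (ret T m n)

/-- the image in the decalage -/
def img : BiSub (dec T) :=
  ⟨fun m n => LinearMap.range ((toDec T).app m n), fun f g _ ⟨x, hx⟩ =>
    ⟨T.map f g x, hx ▸ (toDec T).nat f g x⟩⟩

theorem col_acyc {m j : ℕ} (h : Acyc (T.col (m + 1)) j) : Acyc ((img T).quo.col m) j := by
  let π : Hom (T.col (m + 1)) ((img T).quo.col m) := ⟨fun n => ((img T).S m n).mkQ, fun f x =>
    congrArg Submodule.Quotient.mk (by
      change T.map id f x = T.map (up id) f x
      rw [up_id])⟩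
  let P : Hom (T.col (m + 1)) (T.col (m + 1)) :=
    ⟨fun n => ((toDec T).app m n).comp (T.map (Fin.cases 0 id : Fin (m + 2) → Fin (m + 1)) id),
      fun f x => by
        change T.map _ _ (T.map _ _ (T.map _ _ x)) = T.map _ _ (T.map _ _ (T.map _ _ x))
        simp only [mm]
        rfl⟩
  intro y hy
  obtain ⟨y, rfl⟩ := ((img T).S m j).mkQ_surjective y
  obtain ⟨z, hz⟩ := (Submodule.Quotient.mk_eq_zero _).1 ((π.map_d j y).trans hy)
  have h1 : (T.col (m + 1)).d j (y - P.app j y) = 0 := by
    rw [map_sub, ← P.map_d, ← hz]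
    exact sub_eq_zero.2 (congrArg ((toDec T).app m (j + 1)) (ret T m (j + 1) z)).symm
  have h2 := π.map_bd (h _ h1)
  have h3 : π.app j (P.app j y) = 0 := (Submodule.Quotient.mk_eq_zero _).2 ⟨_, rfl⟩
  rwa [map_sub, h3, sub_zero] at h2

theorem ghost_id {s : ℕ} (h : ∀ m, ∀ j ≤ s, Acyc (T.col m) j) (N : ℕ) :
    Ghost s N (BiHom.id T) := by
  induction N with
  | zero => exact Ghost.zero _
  | succ N ih => exact Ghost.succ (BiHom.id T) (BiHom.id T) h ih

theorem null_toDec (h : HTPY.{u, u}) (r : Hom (T.col 1) (T.col 0))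
    (hr : ∀ n x, r.app n ((T.row n).d 0 x) = x) (s : ℕ) : Null (toDec T).diag s := by
  intro x hx
  have h1 := h k T.diag (T.col 1)
    (fun n χ => T.map (fun i => if χ i then 1 else 0 : Fin (n + 1) → Fin 2) id)
    (fun m n f χ x => (mm T _ _ _ _ x).trans (mm T _ id id f x).symm) s x hx
  have h2 : (T.row s).d 0 (T.map (fun _ => 0 : Fin (s + 1) → Fin 1) id x) =
      T.map (fun _ => 1 : Fin (s + 1) → Fin 2) id x -
        T.map (fun _ => 0 : Fin (s + 1) → Fin 2) id x := by
    rw [Cos.d, Fin.sum_univ_succ, Fin.sum_univ_succ, Fin.sum_univ_zero]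
    simp only [LinearMap.add_apply, LinearMap.neg_apply, mm, Fin.val_succ, Fin.val_zero,
      pow_zero, zero_add, pow_one, one_smul, neg_smul, sub_eq_add_neg, add_zero]
    rfl
  have h3 := r.map_bd (h2.symm ▸ h1 : (T.row s).d 0 _ ∈ (T.col 1).bd s)
  rw [hr] at h3
  let ι : Hom (T.col 0) (dec T).diag :=
    ⟨fun n => T.map (fun _ => 0 : Fin 1 → Fin (n + 2)) id,
      fun f x => (mm T _ _ _ _ x).trans (mm T (fun _ => 0) (up f) id f x).symm⟩
  have h4 := h k T.diag (dec T).diag
    (fun n χ => T.map (fun i => if χ i then i.succ else 0 : Fin (n + 1) → Fin (n + 2)) id)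
    (fun m n f χ x => (mm T _ _ _ _ x).trans (Eq.trans (by
      congr 2
      funext i
      by_cases hi : χ (f i) <;> simp [hi, up]) (mm T _ (up f) id f x).symm)) s x hx
  have h5 := add_mem h4 (ι.map_bd h3)
  have h6 : ι.app s (T.map (fun _ => 0 : Fin (s + 1) → Fin 1) id x) =
      T.map (fun _ => 0 : Fin (s + 1) → Fin (s + 2)) id x := mm T _ _ _ _ x
  rw [h6] at h5
  exact (congrArg (· ∈ (dec T).diag.bd s) (sub_add_cancel ((toDec T).diag.app s x) _)).mp h5

variable {T}

theorem retract {A B : Cos.{u} k} (i : Hom A B) (p : Hom B A) (h : ∀ n x, p.app n (i.app n x) = x)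
    {n : ℕ} (hB : Acyc B n) : Acyc A n := fun x hx => h n x ▸ p.map_bd (hB _ (i.map_cocycle hx))

/-- tensoring with a fixed element -/
noncomputable def lmul {M : Type u} [AddCommGroup M] [Module k M] (a : M) (B : Cos.{u} k) :
    Hom B (tens (const k M) B) := ⟨fun n => TensorProduct.mk k M (B.X n) a, fun _ _ => rfl⟩

theorem d_const {M : Type u} [AddCommGroup M] [Module k M] (B : Cos.{u} k) (j : ℕ)
    (x : M ⊗[k] B.X j) : (tens (const k M) B).d j x = (B.d j).lTensor M x := by
  induction x with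
  | zero => simp
  | tmul a b => exact ((lmul a B).map_d j b).symm
  | add a b ha hb => simp only [map_add, ha, hb]

end KunAux

open KunAux

theorem kunbi (h : HTPY.{u, u}) (hg : GHOST.{u}) (hd : DD.{u}) : KUNBI.{u} := by
  intro k _ T b r hb hr s hs x hx
  have h1 := null_toDec T h r hr s x hx
  cases s with
  | zero => exact toDec_inj T 0 0 (h1.trans (map_zero _).symm)
  | succ j =>
    obtain ⟨y, hy⟩ := h1
    let π : Hom (dec T).diag (img T).quo.diag := ⟨fun n => ((img T).S n n).mkQ, fun _ _ => rfl⟩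
    have h2 : π.app j y ∈ (img T).quo.diag.bd j :=
      hg k _ _ _ j (ghost_id _ (fun m i hi => col_acyc T (hb _ i (by omega))) _) _
        ((π.map_d j y).symm.trans ((Submodule.Quotient.mk_eq_zero _).2 ⟨x, hy.symm⟩))
    have h3 : ∃ z, (dec T).diag.d j ((toDec T).diag.app j z) = (dec T).diag.d j y := by
      cases j with
      | zero =>
        obtain ⟨z, hz⟩ := (Submodule.Quotient.mk_eq_zero _).1 h2
        exact ⟨z, congrArg _ hz⟩
      | succ i =>
        obtain ⟨w, hw⟩ := h2
        obtain ⟨w, rfl⟩ := ((img T).S i i).mkQ_surjective w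
        obtain ⟨z, hz⟩ := (Submodule.Quotient.eq _).1 ((π.map_d i w).trans hw).symm
        refine ⟨z, (congrArg _ hz).trans ?_⟩
        rw [map_sub, hd, sub_zero]
    obtain ⟨z, hz⟩ := h3
    exact ⟨z, toDec_inj T _ _ (((toDec T).diag.map_d j z).trans (hz.trans hy))⟩

theorem kun (h : KUNBI.{u}) (_hg : GHOST.{u}) : KUN.{u} := by
  intro K _
  have h1 : ∀ (M : Type u) [AddCommGroup M] [Module K M] (B B' : Cos.{u} K) (φ : Hom B B') (j : ℕ),
      Null φ j → Null ((Hom.id (const K M)).tens φ) j := by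
    intro M _ _ B B' φ j hφ x hx
    rw [d_const] at hx
    obtain ⟨y, rfl⟩ := (Module.Flat.lTensor_exact M (LinearMap.exact_subtype_ker_map (B.d j)) x).1 hx
    clear hx
    induction y with
    | zero => simp
    | tmul a b => exact (lmul a B').map_bd (hφ b.1 b.2)
    | add a b ha hb =>
      rw [map_add, map_add]
      exact add_mem ha hb
  refine ⟨h1, fun A B b hA hB => ?_⟩
  obtain ⟨π, hπ⟩ := (A.d 0).exists_leftInverse_of_injective (LinearMap.ker_eq_bot'.2 hA)
  have e : ∀ m, A.map (id : Fin (m + 1) → Fin (m + 1)) = LinearMap.id := fun m =>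
    LinearMap.ext (A.map_id m)
  refine h K (btens A B) b ⟨fun n => π.rTensor (B.X n), fun f x => ?_⟩ (fun m j hj => ?_)
    fun n x => ?_
  · induction x using TensorProduct.induction_on with
    | zero => simp
    | tmul a b => simp [e]
    | add a b ha hb => simp only [map_add, ha, hb]
  · refine retract (A := (btens A B).col m) (B := tens (const K (A.X m)) B)
      ⟨fun _ => LinearMap.id, fun f x => ?_⟩
      ⟨fun _ => LinearMap.id, fun f x => ?_⟩ (fun _ _ => rfl) fun x hx => ?_
    · simp [e]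
    · simp [e]
    · have h2 := h1 (A.X m) B B (Hom.id B) j (hB j hj) x hx
      simpa [Hom.tens, Hom.id] using h2
  · induction x using TensorProduct.induction_on with
    | zero => simp
    | tmul a c =>
      let ρ : Hom A ((btens A B).row n) :=
        ⟨fun m => (TensorProduct.mk K (A.X m) (B.X n)).flip c, fun f x => by simp [B.map_id]⟩
      have h2 : ((btens A B).row n).d 0 (a ⊗ₜ c) = A.d 0 a ⊗ₜ c := (ρ.map_d 0 a).symm
      rw [h2]
      exact congrArg (· ⊗ₜ[K] c) (LinearMap.congr_fun hπ a)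
    | add a b ha hb => simp only [map_add, ha, hb]

end P261.Cs
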