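import Vale.Agent.P261Z.Cs.Defs

/-!
# P261, shared layer Cs: two out of three for short exact sequences
-/

namespace P261.Cs

universe u v w

namespace SesAux

variable {k : Type} [CommRing k] {K M Q : Cos.{u} k}

theorem p_i (S : SES K M Q) (n : ℕ) (y : K.X n) : S.p.app n (S.i.app n y) = 0 :=
  (S.exact n _).2 ⟨y, rfl⟩

theorem cocycle (S : SES K M Q) {n : ℕ} {y : K.X n} (h : M.d n (S.i.app n y) = 0) : K.d n y = 0 :=
  S.inj _ (by rw [S.i.map_d, h, map_zero])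

theorem lift_bd (S : SES K M Q) {n : ℕ} {q : Q.X n} (h : q ∈ Q.bd n) :
    ∃ m ∈ M.bd n, S.p.app n m = q := by
  cases n with
  | zero => exact ⟨0, zero_mem _, by rw [map_zero]; exact ((Submodule.mem_bot k).1 h).symm⟩
  | succ n =>
    obtain ⟨q, rfl⟩ := h
    obtain ⟨m, rfl⟩ := S.surj n q
    exact ⟨M.d n m, ⟨m, rfl⟩, S.p.map_d n m⟩

theorem d_bd (h : DD.{u}) {n : ℕ} {m : M.X n} (hm : m ∈ M.bd n) : M.d n m = 0 := by
  cases n with
  | zero => rw [(Submodule.mem_bot k).1 hm, map_zero]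
  | succ n =>
    obtain ⟨m, rfl⟩ := hm
    exact h k M n m

end SesAux

open SesAux

theorem sesmid (h : DD.{v}) : SESMID.{u, v, w} := by
  intro k _ K M Q K' M' Q' K'' M'' Q'' S S' S'' f g n h1 h2 x hx
  obtain ⟨m, hm, e⟩ := lift_bd S' (h1 _ (S.p.map_cocycle hx))
  obtain ⟨y, hy⟩ := (S'.exact n (f.fM.app n x - m)).1 (by rw [map_sub, e, f.hp, sub_self])
  have h3 := S''.i.map_bd (h2 y (cocycle S' (by
    rw [hy, map_sub, f.fM.map_cocycle hx, d_bd h hm, sub_self])))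
  rw [g.hi, hy, map_sub] at h3
  simpa using add_mem h3 (g.fM.map_bd hm)

theorem sessub (h : DD.{w}) : SESSUB.{u, v, w} := by
  intro k _ K M Q K' M' Q' K'' M'' Q'' S S' S'' f g n h1 h2 x hx
  have h3 := h1 _ (S.i.map_cocycle hx)
  rw [← f.hi] at h3
  cases n with
  | zero =>
    have h4 : f.fK.app 0 x = 0 := S'.inj 0 (by rw [map_zero]; exact (Submodule.mem_bot k).1 h3)
    rw [Hom.comp_app, h4, map_zero]
    exact zero_mem _
  | succ n =>
    obtain ⟨m, hm⟩ := h3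
    obtain ⟨m', h4, e⟩ := lift_bd S'' (h2 n rfl (S'.p.app n m) (by rw [← S'.p.map_d, hm, p_i]))
    obtain ⟨y, hy⟩ := (S''.exact n (g.fM.app n m - m')).1 (by rw [map_sub, e, g.hp, sub_self])
    refine ⟨y, S''.inj _ ?_⟩
    rw [S''.i.map_d, hy, map_sub, d_bd h h4, sub_zero, ← g.fM.map_d, hm, Hom.comp_app, g.hi]

theorem sesquo (h : DD.{u}) : SESQUO.{u, v, w} := by
  intro k _ K M Q K' M' Q' K'' M'' Q'' S S' S'' f g n h1 h2 x hx
  obtain ⟨m, rfl⟩ := S.surj n x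
  obtain ⟨y, hy⟩ := (S.exact (n + 1) (M.d n m)).1 (by rw [S.p.map_d, hx])
  obtain ⟨y', hy'⟩ := h1 y (cocycle S (by rw [hy, h k M n m]))
  have h3 := S''.p.map_bd (h2 (f.fM.app n m - S'.i.app n y') (by
    rw [map_sub, ← f.fM.map_d, ← S'.i.map_d, hy', f.hi, hy, sub_self]))
  rwa [g.hp, map_sub, p_i, sub_zero, f.hp] at h3

end P261.Cs
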