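import Vale.Agent.P261Z.Cs.Htpy
import Vale.Agent.P261Z.Cs.Ses
import Vale.Agent.P261Z.Cs.Fib
import Vale.Agent.P261Z.Cs.Ghost
import Vale.Agent.P261Z.Cs.Edge
import Vale.Agent.P261Z.Cs.Kun
import Vale.Agent.P261Z.Cs.Conv
import Vale.Agent.P261Z.Cs.ConvHc

/-!
# P261, layer Cs: all statements without hypotheses
-/

namespace P261.Cs.All

universe u v w

theorem dd : DD.{u} := Cs.dd
theorem htpy : HTPY.{u, v} := Cs.htpy
theorem sesmid : SESMID.{u, v, w} := Cs.sesmid Cs.dd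
theorem sessub : SESSUB.{u, v, w} := Cs.sessub Cs.dd
theorem sesquo : SESQUO.{u, v, w} := Cs.sesquo Cs.dd
theorem constpath : CONSTPATH.{u} := Cs.constpath Cs.htpy
theorem fib_les : FIB.{u} := Cs.fib_les Cs.dd constpath sesmid sessub sesquo
theorem ghost : GHOST.{u} := Cs.ghost Cs.htpy sessub
theorem ghostsub : GHOSTSUB.{u} := Cs.ghostsub ghost
theorem edge : EDGE.{u, v} := Cs.edge Cs.dd ghost constpath
theorem kunbi : KUNBI.{u} := Cs.kunbi Cs.htpy ghost Cs.dd
theorem kun : KUN.{u} := Cs.kun kunbi ghost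
theorem conv : CONV.{u} := Cs.conv kun
theorem convhc : CONVHC.{u} := Cs.convhc kun ghost

end P261.Cs.All
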