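import Vale.Agent.P261Z.Cs.Defs

/-!
# P261, layer Cs: the square of the differential, and the prism operator
-/

namespace P261.Cs

universe u v

namespace HtpyAux

theorem val_sa {n : ℕ} (p : Fin (n + 1)) (i : Fin n) :
    (p.succAbove i : ℕ) = if (i : ℕ) < p then (i : ℕ) else i + 1 := by
  unfold Fin.succAbove
  split_ifs with h1 h2 h2
  · rfl
  · exact absurd h1 h2
  · exact absurd h2 h1
  · rfl

theorem val_pa {n : ℕ} (p : Fin n) (i : Fin (n + 1)) :
    (p.predAbove i : ℕ) = if (p : ℕ) < i then (i : ℕ) - 1 else i := by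
  unfold Fin.predAbove
  split_ifs with h1 h2 h2
  · rfl
  · exact absurd h1 h2
  · exact absurd h2 h1
  · rfl

/-- The exchange of two indices. -/
def sw (n : ℕ) : Equiv.Perm (Fin (n + 1) × Fin n) :=
  Function.Involutive.toPerm (fun q => (q.1.succAbove q.2, q.2.predAbove q.1)) fun _ =>
    Prod.ext (Fin.succAbove_succAbove_predAbove _ _) (Fin.predAbove_predAbove_succAbove _ _)

variable {k : Type} [CommRing k]

theorem d_apply (A : Cos.{u} k) (n : ℕ) (x : A.X n) :
    A.d n x = ∑ i : Fin (n + 2), ((-1 : k) ^ (i : ℕ)) • A.map (Fin.succAbove i) x := by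
  simp [Cos.d, LinearMap.sum_apply]

/-- The colourings of the prism. -/
def chi (n a : ℕ) : Fin (n + 1) → Bool := fun i => decide (a ≤ (i : ℕ))

variable {A : Cos.{u} k} {B : Cos.{v} k} (H : ∀ n, (Fin (n + 1) → Bool) → A.X n →ₗ[k] B.X n)

/-- The prism operator. -/
def pr (n : ℕ) (x : A.X (n + 1)) : B.X n :=
  ∑ j : Fin (n + 1), ((-1 : k) ^ (j : ℕ)) • B.map (Fin.predAbove j) (H (n + 1) (chi _ (j + 1)) x)

/-- The terms which are cancelled. -/
def rest (n : ℕ) (x : A.X n) (j : Fin (n + 1)) (l : Fin n) : B.X n :=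
  ((-1 : k) ^ ((j : ℕ) + l)) • B.map (j.predAbove ∘ (j.castSucc.succAbove (j.succAbove l)).succAbove)
    (H n (chi _ (j + 1) ∘ (j.castSucc.succAbove (j.succAbove l)).succAbove) x)

theorem tele {M : Type v} [AddCommGroup M] (f : ℕ → M) (n : ℕ) :
    ∑ j : Fin n, (f j - f (j + 1)) = f 0 - f n := by
  rw [Fin.sum_univ_eq_sum_range (fun j => f j - f (j + 1)), Finset.sum_range_sub']

theorem pr_d (h : ∀ (m n : ℕ) (f : Fin (m + 1) → Fin (n + 1)) (χ : Fin (n + 1) → Bool) (x : A.X m),
    H n χ (A.map f x) = B.map f (H m (χ ∘ f) x)) (n : ℕ) (x : A.X n) :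
    pr H n (A.d n x) = H n (fun _ => true) x - H n (fun _ => false) x +
      ∑ j, ∑ l, rest H n x j l := by
  have e0 : chi n 0 = fun _ => true := funext fun i => by simp [chi]
  have e1 : chi n (n + 1) = fun _ => false := funext fun i => by
    have := i.2
    simp only [chi, decide_eq_false_iff_not]
    omega
  rw [← e0, ← e1, ← tele (fun a => H n (chi n a) x), ← Finset.sum_add_distrib, pr]
  refine Finset.sum_congr rfl fun j _ => ?_
  rw [d_apply, map_sum, map_sum, Finset.smul_sum, Fin.sum_univ_succAbove _ j.castSucc,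
    Fin.sum_univ_succAbove _ j, ← add_assoc]
  simp only [map_smul, h, ← B.map_comp, smul_smul, ← pow_add]
  have a1 : j.predAbove ∘ j.castSucc.succAbove = id := funext fun i => Fin.ext (by
    simp only [Function.comp, val_pa, val_sa, Fin.val_castSucc, id]
    split_ifs <;> omega)
  have a2 : j.predAbove ∘ (j.castSucc.succAbove j).succAbove = id := funext fun i => Fin.ext (by
    simp only [Function.comp, val_pa, val_sa, Fin.val_castSucc, id]
    split_ifs <;> omega)
  have a3 : chi _ (j + 1) ∘ j.castSucc.succAbove = chi n j := funext fun i => by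
    simp only [Function.comp, chi, val_sa, Fin.val_castSucc, decide_eq_decide]
    split_ifs <;> omega
  have a4 : chi _ (j + 1) ∘ (j.castSucc.succAbove j).succAbove = chi n (j + 1) := funext fun i => by
    simp only [Function.comp, chi, val_sa, Fin.val_castSucc, decide_eq_decide]
    split_ifs <;> omega
  have a5 : ((j.castSucc.succAbove j : Fin (n + 2)) : ℕ) = j + 1 := by simp
  rw [a1, a2, a3, a4, a5, B.map_id, B.map_id, Fin.val_castSucc, ← add_assoc, pow_succ,
    Even.neg_one_pow ⟨j, rfl⟩, one_smul, one_mul, neg_one_smul, ← sub_eq_add_neg]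
  refine congrArg _ (Finset.sum_congr rfl fun l _ => ?_)
  rw [rest]
  congr 1
  simp only [val_sa, Fin.val_castSucc]
  refine neg_one_pow_congr ?_
  simp only [Nat.even_iff]
  split_ifs <;> omega

theorem d_pr (n : ℕ) (x : A.X (n + 1)) :
    B.d n (pr H n x) = -∑ j, ∑ l, rest H (n + 1) x j l := by
  rw [d_apply, ← Fintype.sum_prod_type', ← Finset.sum_neg_distrib]
  simp only [pr, map_sum, map_smul, Finset.smul_sum, smul_smul, ← pow_add, ← B.map_comp]
  rw [← Fintype.sum_prod_type', ← Equiv.sum_comp (sw (n + 1))]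
  refine Finset.sum_congr rfl fun q _ => ?_
  obtain ⟨j, l⟩ := q
  have a1 : (j.succAbove l).succAbove ∘ (l.predAbove j).predAbove =
      j.predAbove ∘ (j.castSucc.succAbove (j.succAbove l)).succAbove := funext fun i => Fin.ext (by
    simp only [Function.comp, val_pa, val_sa, Fin.val_castSucc]
    split_ifs <;> omega)
  have a2 : chi _ (l.predAbove j + 1) =
      chi _ (j + 1) ∘ (j.castSucc.succAbove (j.succAbove l)).succAbove := funext fun i => by
    simp only [Function.comp, chi, val_pa, val_sa, Fin.val_castSucc, decide_eq_decide]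
    split_ifs <;> omega
  change ((-1 : k) ^ ((j.succAbove l : ℕ) + l.predAbove j)) •
    B.map ((j.succAbove l).succAbove ∘ (l.predAbove j).predAbove)
      (H _ (chi _ (l.predAbove j + 1)) x) = _
  rw [a1, a2, Fin.neg_one_pow_succAbove_add_predAbove, neg_smul, rest]

end HtpyAux

open HtpyAux

theorem dd : DD.{u} := by
  intro k _ A n x
  rw [d_apply]
  simp only [d_apply, map_sum, map_smul, Finset.smul_sum, smul_smul, ← pow_add, ← A.map_comp]
  rw [← Fintype.sum_prod_type']
  refine Finset.sum_involution (fun q _ => sw (n + 2) q) (fun q _ => ?_) (fun q _ _ e => ?_)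
    (fun _ _ => Finset.mem_univ _) fun q _ => (sw (n + 2)).left_inv q
  · obtain ⟨i, j⟩ := q
    have a : (i.succAbove j).succAbove ∘ (j.predAbove i).succAbove = i.succAbove ∘ j.succAbove :=
      funext fun l => Fin.succAbove_succAbove_succAbove_predAbove _ _ _
    change _ + ((-1 : k) ^ ((i.succAbove j : ℕ) + j.predAbove i)) •
      A.map ((i.succAbove j).succAbove ∘ (j.predAbove i).succAbove) x = 0
    rw [a, Fin.neg_one_pow_succAbove_add_predAbove, neg_smul, add_neg_cancel]
  · exact Fin.succAbove_ne q.1 q.2 (congrArg Prod.fst e)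

theorem htpy : HTPY.{u, v} := by
  intro k _ A B H h n x hx
  have h1 := pr_d H h n x
  rw [hx] at h1
  have h0 : pr H n 0 = 0 := by simp [pr]
  rw [h0, eq_comm, add_eq_zero_iff_eq_neg] at h1
  cases n with
  | zero => simpa [Cos.bd] using h1
  | succ n => exact ⟨pr H n x, (d_pr H n x).trans h1.symm⟩

end P261.Cs
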